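import Crest.Agent.N255.Core.CG

/-! Row 255 (helper76): vertex identities with one weight per slot; `VxH`, `VertexH`, `CoreH`. -/

set_option autoImplicit false

namespace N255.Core

open N255.Dr N255.Dr.O Finset

variable {p : ℕ} [hp : Fact p.Prime] {Γ : Type} [AddCommGroup Γ] {δ : Γ}

namespace Wall

variable {s : Type} [Fintype s] [DecidableEq s] (w : Wall p Γ δ s) (N La : ℕ)

/-- the arithmetic of the weights, without quantisation -/
structure Gh (b : Bool) (al : s) : Prop where
  pos : ∀ i, 0 < N + w.F i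
  le : ∀ i, w.kd i = none → N + w.F i ≤ La
  gen : b = true → ∀ x : Ix s, (∀ i, x.2.1 i < p) → w.NoFar b x →
    w.wW N La x = w.wW N La (w.ld b al) → (∃ be, w.kd be = none ∧ x = w.ld b be) ∨ 1 ≤ x.1

theorem gh_of {b : Bool} {al : s} (hal : w.kd al = none) (pos : ∀ i, 0 < N + w.F i)
    (le : ∀ i, w.kd i = none → N + w.F i ≤ La)
    (hH : ∑ i ∈ w.nr b, p * (N + w.F i) < La ∨ (Odd La ∧ ∀ i, Even (N + w.F i))) :
    w.Gh N La b al := by
  have hL : (0 : ℤ) < La := by exact_mod_cast (pos al).trans_le (le al hal)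
  refine ⟨pos, le, fun hb x hx hn h => ?_⟩
  subst hb
  by_contra hc
  rw [not_or] at hc
  obtain ⟨hc1, hc2⟩ := hc
  have hfar : ∀ i, i ∉ w.nr true → x.2.1 i = 0 ∧ i ∉ x.2.2 := fun i hi => hn i (by
    rw [mem_nr2] at hi
    rcases hk : w.kd i with _ | _ | _ <;> simp_all)
  have hG : ∑ i, w.gv N x i = ∑ i ∈ w.nr true, w.gv N x i := by
    rw [← sum_add_sum_compl (w.nr true), sum_eq_zero (s := (w.nr true)ᶜ), add_zero]
    intro i hi
    obtain ⟨h1, h2⟩ := hfar i (mem_compl.1 hi)
    simp [gv, h1, h2]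
  rw [wW_eq2, wW_eq2, w.sum_gv_ld N true hal, ky_ld_true w hal,
    show (w.ld true al).1 = 0 from rfl, hG] at h
  have h1 : ∑ i ∈ w.nr true, w.gv N x i ≤ ∑ i ∈ w.nr true, w.tv N i :=
    sum_le_sum fun i _ => w.gv_le N hx i
  have h2 := w.ky_le hx
  have h4 : 0 ≤ 2 * x.1 + w.ky x - w.kt + 1 := by
    by_contra h5
    have : 2 * x.1 + w.ky x - w.kt + 2 ≤ 0 := by omega
    nlinarith
  have hj : x.1 = 0 := by omega
  rw [hj] at h h4
  by_cases hk : w.ky x = w.kt
  · rw [hk] at h
    have h5 : ∑ i ∈ w.nr true, w.tv N i - ∑ i ∈ w.nr true, w.gv N x i = La := by linarith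
    rcases hH with hH | ⟨hO, hE⟩
    · have h6 : ∑ i ∈ w.nr true, w.tv N i < La :=
        (sum_le_sum fun i _ => w.tv_le N i).trans_lt (by exact_mod_cast hH)
      have h7 : 0 ≤ ∑ i ∈ w.nr true, w.gv N x i := sum_nonneg fun i _ => w.gv_nonneg N x i
      omega
    · have hE' : ∀ i, (2 : ℤ) ∣ N + w.F i := fun i => by exact_mod_cast (hE i).two_dvd
      have h6 : (2 : ℤ) ∣ La := by
        rw [← h5]
        refine dvd_sub (dvd_sum fun i _ => ?_) (dvd_sum fun i _ => ?_)
        · unfold tv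
          split_ifs
          · exact hE' i
          · exact (hE' i).mul_left _
        · unfold gv
          refine dvd_add ?_ ?_ <;> split_ifs
          · exact dvd_zero _
          · exact (hE' i).mul_left _
          · exact hE' i
          · exact dvd_zero _
      obtain ⟨c, hc⟩ := hO
      omega
  · have hk' : w.ky x = w.kt - 1 := by omega
    rw [hk'] at h
    have h5 : ∑ i ∈ w.nr true, w.gv N x i = ∑ i ∈ w.nr true, w.tv N i := by linarith
    have h6 := (sum_eq_sum_iff_of_le fun i _ => w.gv_le N hx i).1 h5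
    have h7 : ∀ i ∈ w.nr true, i ∈ x.2.2 ∧ (w.kd i ≠ none → x.2.1 i = p - 1) := fun i hi => by
      have e := h6 i hi
      have h8 : (0 : ℤ) < N + w.F i := by exact_mod_cast pos i
      have h9 : (x.2.1 i : ℤ) + 1 ≤ p := by exact_mod_cast hx i
      unfold gv tv at e
      by_cases hk : w.kd i = none
      · refine ⟨?_, fun h => absurd hk h⟩
        by_contra hS
        simp only [hk, hS, if_true, if_false] at e
        omega
      · by_cases hS : i ∈ x.2.2
        · simp only [hk, hS, if_true, if_false] at e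
          have : (x.2.1 i : ℤ) + 1 = p := by
            have : ((x.2.1 i : ℤ) + 1 - p) * (N + w.F i) = 0 := by linarith
            rcases mul_eq_zero.1 this with h | h <;> omega
          exact ⟨hS, fun _ => by omega⟩
        · simp only [hk, hS, if_false] at e
          nlinarith
    let df : s → ℤ := fun i => if w.kd i = none then (p - 1 : ℤ) - x.2.1 i else 0
    have hd0 : ∀ i, 0 ≤ df i := fun i => by
      have h9 : (x.2.1 i : ℤ) + 1 ≤ p := by exact_mod_cast hx i
      simp only [df]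
      split_ifs <;> omega
    have hd1 : ∑ i, df i = 1 := by
      have : ∑ i, df i = w.kt - w.ky x := by
        rw [kt, ky, ← sum_sub_distrib]
        refine sum_congr rfl fun i _ => ?_
        simp only [df]
        split_ifs <;> simp
      omega
    obtain ⟨be, -, hbe⟩ := exists_ne_zero_of_sum_ne_zero (s := univ) (f := df) (by omega)
    have hs := add_sum_erase univ df (mem_univ be)
    have hr : 0 ≤ ∑ i ∈ univ.erase be, df i := sum_nonneg fun i _ => hd0 i
    have hb0 := hd0 be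
    have hb1 : df be = 1 := by omega
    have hr0 := (sum_eq_zero_iff_of_nonneg fun i _ => hd0 i).1
      (show ∑ i ∈ univ.erase be, df i = 0 by omega)
    have hkb : w.kd be = none := by
      by_contra hk
      simp [df, hk] at hbe
    refine hc1 ⟨be, hkb, Prod.ext hj (Prod.ext (funext fun i => ?_) ?_)⟩
    · simp only [ld, if_true]
      by_cases hi : i = be
      · subst hi
        simp only [df, hkb, if_true] at hb1
        rw [if_pos rfl]
        omega
      · rw [if_neg hi]
        by_cases hin : i ∈ w.nr true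
        · rw [if_pos hin]
          by_cases hk : w.kd i = none
          · have := hr0 i (by simp [hi])
            simp only [df, hk, if_true] at this
            omega
          · exact (h7 i hin).2 hk
        · rw [if_neg hin]; exact (hfar i hin).1
    · ext i
      simp only [ld]
      exact ⟨fun h => by_contra fun h' => (hfar i h').2 h, fun h => (h7 i h).1⟩

end Wall

variable {s : Fin 3 → Type} [∀ i, Fintype (s i)]

open Classical in
/-- the indicator of the copies of the variables `y` of slot `i` -/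
noncomputable def yi (w : ∀ i, Wall p Γ δ (s i)) {V : Type} (em : (Σ i, s i) × Bool → V)
    (i : Fin 3) (v : V) : ℕ :=
  if ∃ x, (w i).kd x = none ∧ v = em (⟨i, x⟩, false) then 1 else 0

/-- A vertex identity with pure weights `FV` and one weight `om i ≤ FV` per slot.  Outside the
small set `Bad` foreign variables are cheap for `om i`.  Extra variables are allowed. -/
structure VxH (w : ∀ i, Wall p Γ δ (s i)) (t : Fin 3 → Bool) (N La : ℕ) (V : Type)
    [Fintype V] where
  em : (Σ i, s i) × Bool → V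
  inj : Set.InjOn em {q | Ok w t q}
  FV : V → ℕ
  hF : ∀ i x, Ok w t (⟨i, x⟩, false) → FV (em (⟨i, x⟩, false)) = N + (w i).F x
  hm : ∀ i x, Ok w t (⟨i, x⟩, true) → 0 < FV (em (⟨i, x⟩, true)) ∧ FV (em (⟨i, x⟩, true)) ≤ La
  om : Fin 3 → V → ℕ
  om_le : ∀ i v, om i v ≤ FV v
  om_em : ∀ i x, Ok w t (⟨i, x⟩, false) → om i (em (⟨i, x⟩, false)) = N + (w i).F x
  Bad : Finset V
  cheap : ∀ i q, Ok w t q → q.1.1 ≠ i → em q ∉ Bad → 3 * om i (em q) ≤ FV (em q)
  bad : ∀ q : Xi w t, em q.1 ∈ Bad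
  small : 4 * (p * ∑ v ∈ Bad, FV v) < La
  io : ∀ i, O p (ZMod p) (s i) →ₐ[ZMod p] O p (ZMod p) V
  near : ∀ i x, (w i).kd x ≠ some (!t i) →
    Hi (om i) (N + (w i).F x) (io i (z x) - z (em (⟨i, x⟩, false)))
  far : ∀ i x, (w i).kd x = some (!t i) → Hi (om i) (N + (w i).F x) (io i (z x))
  hy : ∀ i x, (w i).kd x = none →
    Hi (vw w t La em FV) La (io i (z x) - z (em (⟨i, x⟩, false)))
  hyL : ∀ i x, t i = false → (w i).kd x = none →
    io i (z x) - z (em (⟨i, x⟩, false)) ∈ Ge (yi w em i) 1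
  rho : O p (ZMod p) (Xi w t) →ₐ[ZMod p] O p (ZMod p) V
  hrho : ∀ q : Xi w t, Hi FV (FV (em q.1)) (rho (z q) - z (em q.1))
  Q : O p (ZMod p) (Xi w t)
  hQ : Q ∈ (mx : Ideal (O p (ZMod p) (Xi w t))) ^ 2
  c : ∀ i, s i → ZMod p
  hc : ∀ i x, t i = false → (w i).kd x = none → c i x ≠ 0
  Ps : O p (ZMod p) V
  Ps2 : Ps ∈ (mx : Ideal (O p (ZMod p) V)) ^ 2
  hPs : Ps ∈ Ge (vw w t La em FV) (3 * La)
  eq : ∑ i, (if t i = true then io i (w i).W else -io i (w i).W) +
    ∑ i, ∑ x, (if t i = false ∧ (w i).kd x = none then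
      c i x • (z (em (⟨i, x⟩, false)) * z (em (⟨i, x⟩, true))) else 0) + Ps = rho Q

/-- the trilinear coefficient -/
noncomputable def VxH.cub {w : ∀ i, Wall p Γ δ (s i)} {t : Fin 3 → Bool} {N La : ℕ} {V : Type}
    [Fintype V] (v : VxH w t N La V) (al : ∀ i, s i) : ZMod p :=
  aug (pd (v.em (⟨0, al 0⟩, !t 0)) (pd (v.em (⟨1, al 1⟩, !t 1)) (pd (v.em (⟨2, al 2⟩, !t 2)) v.Ps)))

/-- the vertex theorem with one weight per slot -/
def VertexH : Prop :=
  ∀ (p : ℕ) [Fact p.Prime] (Γ : Type) [AddCommGroup Γ] (δ : Γ) (s : Fin 3 → Type)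
    [∀ i, Fintype (s i)] [∀ i, DecidableEq (s i)] (w : ∀ i, Wall p Γ δ (s i)) (t : Fin 3 → Bool)
    (N La : ℕ) (V : Type) [Fintype V] (v : VxH w t N La V) (al : ∀ i, s i),
    (∀ i, (w i).kd (al i) = none) → (∀ i, (w i).Gh N La (t i) (al i)) →
    (∀ i, (w i).Test N La (t i) (al i)) → v.cub al = 0

/-- THE ALGEBRAIC CORE without moves: three walls with even weights cannot have vertex identities
`VxH` for all eight patterns. -/
def CoreH : Prop :=
  ∀ (p : ℕ) [Fact p.Prime], p ≠ 2 → ∀ (Γ : Type) [AddCommGroup Γ] (δ : Γ) (s : Fin 3 → Type)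
    [∀ i, Fintype (s i)] (w : ∀ i, Wall p Γ δ (s i)) (N La : ℕ) (D : ∀ i, ZMod p → s i),
    (∀ i d, (w i).kd (D i d) = none) → (∀ i x, 0 < N + (w i).F x) →
    (∀ i x, (w i).kd x = none → N + (w i).F x ≤ La) → Odd La → (∀ i x, Even (N + (w i).F x)) →
    ∀ m0 : ZMod p, (∀ t : Fin 3 → Bool, ∃ (V : Type) (_ : Fintype V) (v : VxH w t N La V),
        ∀ d : Fin 3 → ZMod p, ∑ i, (if t i = true then d i else m0 - d i) = m0 →
          v.cub (fun i => D i (d i)) ≠ 0) → False

/-- three strong sides cannot point to one vertex -/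
theorem no_threeH (hV : VertexH) [∀ i, DecidableEq (s i)] {w : ∀ i, Wall p Γ δ (s i)}
    {t : Fin 3 → Bool} {N La : ℕ} {V : Type} [Fintype V] (v : VxH w t N La V)
    {D : ∀ i, ZMod p → s i} (hD : ∀ i d, (w i).kd (D i d) = none)
    (hG : ∀ i d, (w i).Gh N La (t i) (D i d)) {m0 : ZMod p}
    (hc : ∀ d : Fin 3 → ZMod p, ∑ i, (if t i = true then d i else m0 - d i) = m0 →
      v.cub (fun i => D i (d i)) ≠ 0)
    (hS : ∀ i, (w i).Strong N La (t i) (D i)) : False := by
  obtain ⟨d, h1, h2⟩ := exists_dirs m0 hS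
  exact hc d h1 (hV p Γ δ s w t N La V v _ (fun i => hD i _) (fun i => hG i _) h2)

theorem coreH_of (hV : VertexH) : CoreH := by
  intro p hp hp2 Γ _ δ s _ w N La D hDk hpos hle hO hE m0 h
  classical
  have hs : ∀ i, ∃ b, (w i).Strong N La b (D i) := fun i =>
    (strong_orG N255.Ts.dichG_holds hp2 (w i) N hO.pos (hDk i)).elim (fun h => ⟨_, h⟩)
      fun h => ⟨_, h⟩
  choose t ht using hs
  obtain ⟨V, _, v, hv⟩ := h t
  exact no_threeH hV v hDk (fun i d => (w i).gh_of N La (hDk i d) (hpos i) (hle i)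
    (Or.inr ⟨hO, hE i⟩)) hv ht

end N255.Core
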