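import Crest.Agent.N255.Core.TypD

/-! Row 255 (helper45): the typed core with the `M` side chosen per orbit of walls. -/

set_option autoImplicit false

namespace N255.Core

open N255.Dr N255.Dr.O Finset Crest.Agent.N255.Pt Crest.Agent.N255.Lv

variable {ι : Type} {F : Subgroup (FreeGroup ι)}

/-- the representative whose back side is the `M` side -/
noncomputable def rk (ka : Wo F → Bool) (c : Wo F) : Ed ι := if ka c = true then rev (rp c) else rp c

/-- `true` iff the origin of the half edge `e` lies on the `M` side -/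
def tk (ka : Wo F → Bool) (e : Ed ι) : Bool := xor e.k.2 (ka (cl F e))

/-- the orientation of `e` whose back side is the `M` side -/
def ek (ka : Wo F → Bool) (e : Ed ι) : Ed ι := if tk ka e = true then e else rev e

variable (ka : Wo F → Bool)

@[simp] theorem cl_rk (c : Wo F) : cl F (rk ka c) = c := by unfold rk; split_ifs <;> simp

theorem rk_fst (c : Wo F) : (rk ka c).k.1 = c.2 := by unfold rk; split_ifs <;> rfl

theorem tk_rev (e : Ed ι) : tk ka (rev e) = !tk ka e := by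
  rw [tk, cl_rev, tk]
  show xor (!e.k.2) _ = _
  cases e.k.2 <;> cases ka (cl F e) <;> rfl

theorem tk_smul (f : F) (e : Ed ι) : tk ka (f.1 • e) = tk ka e := by rw [tk, cl_smul]; rfl

@[simp] theorem tk_rk (c : Wo F) : tk ka (rk ka c) = true := by
  rw [tk, cl_rk, rk]
  cases ka c <;> rfl

theorem ek_true {e : Ed ι} (h : tk ka e = true) : ek ka e = e := if_pos h

theorem ek_false {e : Ed ι} (h : tk ka e = false) : ek ka e = rev e := if_neg (by simp [h])

@[simp] theorem cl_ek (e : Ed ι) : cl F (ek ka e) = cl F e := by unfold ek; split_ifs <;> simp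

@[simp] theorem tk_ek (e : Ed ι) : tk ka (ek ka e) = true := by
  cases h : tk ka e
  · rw [ek_false ka h, tk_rev, h]; rfl
  · rw [ek_true ka h, h]

/-- every edge, oriented with the `M` side behind it, is a translate of the representative -/
theorem exists_rk (e : Ed ι) : ∃ f : F, f.1 • rk ka (cl F e) = ek ka e := by
  obtain ⟨f, hf⟩ := exists_rp (F := F) e
  refine ⟨f, ?_⟩
  rw [pe_eq] at hf
  unfold rk ek tk
  cases h : ka (cl F e) <;> cases h' : e.k.2 <;> simp only [h'] at hf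
  · simpa using hf
  · simpa using hf
  · simpa [← rev_smul] using congrArg rev hf
  · simpa [← rev_smul] using congrArg rev hf

theorem NoLab.flip (h : NoLab F) (σ : Wo F → Bool) :
    ∃ (v : FreeGroup ι) (u : ι → Bool), ∀ i, σ (cl F ⟨v, (i, u i)⟩) = tk ka ⟨v, (i, u i)⟩ := by
  obtain ⟨v, u, hu⟩ := h fun c => xor (σ c) (ka c)
  refine ⟨v, u, fun i => ?_⟩
  have := hu i
  rw [tk]
  show _ = xor (u i) _
  generalize σ (cl F ⟨v, (i, u i)⟩) = a, ka (cl F ⟨v, (i, u i)⟩) = b at this ⊢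
  rw [← this]
  cases a <;> cases b <;> rfl

/-- THE CORE: walls indexed by `F`-orbits, the `M` side chosen by `ka`; `u` picks one half edge of every
type at the vertex `v`. -/
theorem coreK (p : ℕ) [Fact p.Prime] (hp2 : p ≠ 2) (Γ : Type) [AddCommGroup Γ] (δ : Γ)
    {F : Subgroup (FreeGroup (Fin 3))} (hF : NoLab F) (ka : Wo F → Bool) (s : Wo F → Type)
    [∀ c, Fintype (s c)] (w : ∀ c, Wall p Γ δ (s c)) (N La : ℕ) (D : ∀ c, ZMod p → s c)
    (hDk : ∀ c d, (w c).kd (D c d) = none) (hpos : ∀ c x, 0 < N + (w c).F x)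
    (hle : ∀ c x, (w c).kd x = none → N + (w c).F x ≤ La) (hO : Odd La)
    (hE : ∀ c x, Even (N + (w c).F x)) (m0 : ZMod p)
    (h : ∀ (v : FreeGroup (Fin 3)) (u : Fin 3 → Bool), ∃ (V : Type) (_ : Fintype V)
      (x : VxD (fun i => w (cl F ⟨v, (i, u i)⟩)) (fun i => tk ka ⟨v, (i, u i)⟩) N La V),
        ∀ d : Fin 3 → ZMod p, ∑ i, (if tk ka ⟨v, (i, u i)⟩ = true then d i else m0 - d i) = m0 →
          x.cub (fun i => D _ (d i)) ≠ 0) : False := by
  classical
  obtain ⟨σ, hσ⟩ := exists_strong hp2 w N hO.pos hDk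
  obtain ⟨v, u, hu⟩ := hF.flip ka σ
  obtain ⟨V, _, x, hx⟩ := h v u
  exact no_threeD N255.Vh.vertexD_holds x (fun i => hDk _)
    (fun i d => (w _).gh_of N La (hDk _ d) (hpos _) (hle _) (Or.inr ⟨hO, hE _⟩)) hx
    fun i => by have := hσ (cl F ⟨v, (i, u i)⟩); rwa [hu i] at this

/-- the same without defect -/
theorem coreKH (p : ℕ) [Fact p.Prime] (hp2 : p ≠ 2) (Γ : Type) [AddCommGroup Γ] (δ : Γ)
    {F : Subgroup (FreeGroup (Fin 3))} (hF : NoLab F) (ka : Wo F → Bool) (s : Wo F → Type)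
    [∀ c, Fintype (s c)] (w : ∀ c, Wall p Γ δ (s c)) (N La : ℕ) (D : ∀ c, ZMod p → s c)
    (hDk : ∀ c d, (w c).kd (D c d) = none) (hpos : ∀ c x, 0 < N + (w c).F x)
    (hle : ∀ c x, (w c).kd x = none → N + (w c).F x ≤ La) (hO : Odd La)
    (hE : ∀ c x, Even (N + (w c).F x)) (m0 : ZMod p)
    (h : ∀ (v : FreeGroup (Fin 3)) (u : Fin 3 → Bool), ∃ (V : Type) (_ : Fintype V)
      (x : VxH (fun i => w (cl F ⟨v, (i, u i)⟩)) (fun i => tk ka ⟨v, (i, u i)⟩) N La V),
        ∀ d : Fin 3 → ZMod p, ∑ i, (if tk ka ⟨v, (i, u i)⟩ = true then d i else m0 - d i) = m0 →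
          x.cub (fun i => D _ (d i)) ≠ 0) : False := by
  classical
  obtain ⟨σ, hσ⟩ := exists_strong hp2 w N hO.pos hDk
  obtain ⟨v, u, hu⟩ := hF.flip ka σ
  obtain ⟨V, _, x, hx⟩ := h v u
  exact no_threeH N255.Vh.vertexH_holds x (fun i => hDk _)
    (fun i d => (w _).gh_of N La (hDk _ d) (hpos _) (hle _) (Or.inr ⟨hO, hE _⟩)) hx
    fun i => by have := hσ (cl F ⟨v, (i, u i)⟩); rwa [hu i] at this

end N255.Core
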