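import Crest.Agent.N255.Core.Stm

/-! Row 255, algebraic core: `CoreS` from the dichotomy and the vertex theorem. -/

set_option autoImplicit false

namespace N255.Core

open N255.Dr N255.Dr.O

section Kill

variable {p : ℕ} [Fact p.Prime] {V : Type}

open Classical in
/-- put the variables outside `A` equal to zero -/
noncomputable def kill (A : V → Prop) : O p (ZMod p) V →ₐ[ZMod p] O p (ZMod p) {x // A x} :=
  sub (fun x => if h : A x then z ⟨x, h⟩ else 0) fun x => by
    split_ifs
    · exact z_mem _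
    · exact zero_mem _

theorem kill_z {A : V → Prop} {x : V} (h : A x) :
    kill A (z x : O p (ZMod p) V) = z ⟨x, h⟩ := by
  rw [kill, sub_z, dif_pos h]

theorem kill_z_not {A : V → Prop} {x : V} (h : ¬ A x) : kill A (z x : O p (ZMod p) V) = 0 := by
  rw [kill, sub_z, dif_neg h]

theorem kill_z_mem (A : V → Prop) (x : V) :
    kill A (z x : O p (ZMod p) V) ∈ (mx : Ideal (O p (ZMod p) {x // A x})) := by
  by_cases h : A x
  · rw [kill_z h]; exact z_mem _
  · rw [kill_z_not h]; exact zero_mem _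

theorem aug_kill (A : V → Prop) (f : O p (ZMod p) V) : aug (kill A f) = aug f := by
  have : (aug : O p (ZMod p) {x // A x} →ₐ[ZMod p] ZMod p).comp (kill A) = aug :=
    hom_ext fun x => by
      rw [AlgHom.comp_apply, aug_z]
      exact mem_mx.1 (kill_z_mem A x)
  exact DFunLike.congr_fun this f

theorem pd_kill [Finite V] (A : V → Prop) (x : {x // A x}) (f : O p (ZMod p) V) :
    pd x (kill A f) = kill A (pd x.1 f) := by
  classical
  have := Fintype.ofFinite V
  rw [chain (kill A) (pd x) f, Finset.sum_eq_single x.1]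
  · rw [kill_z x.2, pd_z_self, smul_eq_mul, mul_one]
  · intro y _ hy
    by_cases h : A y
    · rw [kill_z h, pd_z_ne, smul_zero]
      intro e
      exact hy (congrArg Subtype.val e).symm
    · rw [kill_z_not h, map_zero, smul_zero]
  · simp

theorem lin_kill [Finite V] (A : V → Prop) (x : {x // A x}) (f : O p (ZMod p) V) :
    lin x (kill A f) = lin x.1 f := by
  rw [lin, pd_kill, aug_kill, lin]

end Kill

variable {p : ℕ} [Fact p.Prime] {Γ : Type} [AddCommGroup Γ] {δ : Γ} {s : Fin 3 → Type}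
  [∀ i, Fintype (s i)] {w : ∀ i, Wall p Γ δ (s i)} {t : Fin 3 → Bool} {V : Type}

/-- the variables that are not extra -/
def Vx.Us (v : Vx w t V) (x : V) : Prop := ∃ q, Ok w t q ∧ v.em q = x

open Classical in
/-- the indexing of the variables that are not extra -/
noncomputable def Vx.em' (v : Vx w t V) (x0 : {x // v.Us x}) (q : (Σ i, s i) × Bool) :
    {x // v.Us x} := if h : Ok w t q then ⟨v.em q, q, h, rfl⟩ else x0

theorem Vx.em'_val (v : Vx w t V) (x0 : {x // v.Us x}) {q : (Σ i, s i) × Bool} (h : Ok w t q) :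
    (v.em' x0 q).1 = v.em q := by
  rw [Vx.em', dif_pos h]

theorem Vx.kill_em (v : Vx w t V) (x0 : {x // v.Us x}) {q : (Σ i, s i) × Bool} (h : Ok w t q) :
    kill v.Us (z (v.em q) : O p (ZMod p) V) = z (v.em' x0 q) := by
  rw [kill_z ⟨q, h, rfl⟩, Vx.em', dif_pos h]

theorem Vx.up' [Finite V] (v : Vx w t V) (x0 : {x // v.Us x}) {n : ℕ} {f : O p (ZMod p) V}
    (h : Up w t v.em v.FV n f) : Up w t (v.em' x0) v.FV n (kill v.Us f) :=
  ⟨map_mx _ (kill_z_mem _) h.1, fun q hq hn => by
    rw [lin_kill, v.em'_val x0 hq]; exact h.2 q hq hn⟩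

omit [Fact p.Prime] in
theorem ok_y {i : Fin 3} {x : s i} (h : (w i).kd x = none) : Ok w t (⟨i, x⟩, false) :=
  Or.inl ⟨rfl, by simp [h]⟩

omit [Fact p.Prime] in
theorem ok_near {i : Fin 3} {x : s i} (h : (w i).kd x = some (t i)) : Ok w t (⟨i, x⟩, false) :=
  Or.inl ⟨rfl, by simp [h]⟩

omit [Fact p.Prime] in
theorem ok_m {i : Fin 3} {x : s i} (ht : t i = false) (h : (w i).kd x = none) :
    Ok w t (⟨i, x⟩, true) := Or.inr ⟨rfl, ht, h⟩

omit [Fact p.Prime] in
theorem ok_xi (q : Xi w t) : Ok w t q.1 := by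
  obtain ⟨⟨⟨i, x⟩, b⟩, ht, h⟩ := q
  cases b
  · exact ok_y h
  · exact ok_m ht h

omit [Fact p.Prime] in
theorem ok_dir {i : Fin 3} {x : s i} (h : (w i).kd x = none) : Ok w t (⟨i, x⟩, !t i) := by
  cases ht : t i
  · exact ok_m ht h
  · exact ok_y h

/-- the vertex identity without extra variables -/
noncomputable def Vx.red [Finite V] (v : Vx w t V) (x0 : {x // v.Us x}) :
    Vx w t {x // v.Us x} where
  em := v.em' x0
  inj := fun q hq q' hq' e => v.inj hq hq' (by
    rw [← v.em'_val x0 hq, ← v.em'_val x0 hq', e])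
  FV := v.FV
  hF := v.hF
  io i := (kill v.Us).comp (v.io i)
  hy i x h := by rw [AlgHom.comp_apply, v.hy i x h, v.kill_em x0 (ok_y h)]
  near i x h := by
    have := v.up' x0 (v.near i x h)
    rwa [map_sub, v.kill_em x0 (ok_near h)] at this
  far i x h := v.up' x0 (v.far i x h)
  rho := (kill v.Us).comp v.rho
  hrho q := by
    have := v.up' x0 (v.hrho q)
    rwa [map_sub, v.kill_em x0 (ok_xi q)] at this
  Q := v.Q
  hQ := v.hQ
  c := v.c
  hc := v.hc
  Ps := kill v.Us v.Ps
  hPs := by
    have h := Ideal.mem_map_of_mem (kill v.Us) v.hPs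
    rw [Ideal.map_pow] at h
    refine Ideal.pow_right_mono ?_ 3 h
    rw [Ideal.map_span, Ideal.span_le]
    rintro _ ⟨_, ⟨x, rfl, hx⟩, rfl⟩
    by_cases hu : v.Us x
    · rw [kill_z hu]
      refine Ideal.subset_span ⟨_, rfl, fun i y hy e => hx i y hy ?_⟩
      rw [← v.em'_val x0 (ok_near hy), ← e]
    · rw [kill_z_not hu]; exact zero_mem _
  eq := by
    have h := congrArg (kill v.Us) v.eq
    rw [map_add, map_add, map_sum, map_sum] at h
    rw [AlgHom.comp_apply, ← h]
    congr 2
    · refine Finset.sum_congr rfl fun i _ => ?_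
      split_ifs <;> simp
    · refine Finset.sum_congr rfl fun i _ => ?_
      rw [map_sum]
      refine Finset.sum_congr rfl fun x _ => ?_
      split_ifs with hx
      · rw [map_smul, map_mul, v.kill_em x0 (ok_y hx.2), v.kill_em x0 (ok_m hx.1 hx.2)]
      · simp

theorem Vx.red_cub [Finite V] (v : Vx w t V) (x0 : {x // v.Us x}) {al : ∀ i, s i}
    (h : ∀ i, (w i).kd (al i) = none) : (v.red x0).cub al = v.cub al := by
  simp only [Vx.cub, Vx.red]
  rw [pd_kill, pd_kill, pd_kill, aug_kill, v.em'_val x0 (ok_dir (h 0)),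
    v.em'_val x0 (ok_dir (h 1)), v.em'_val x0 (ok_dir (h 2))]

/-- the vertex theorem with extra variables -/
theorem vertex_gen (hV : VertexS) [∀ i, DecidableEq (s i)] [Finite V] (v : Vx w t V) {N La : ℕ}
    (hA : ∀ i, (w i).Adm N La) (hF : ∀ q, Ok w t q → v.FV q < N) {al : ∀ i, s i}
    (hal : ∀ i, (w i).kd (al i) = none) (hT : ∀ i, (w i).Test N La (t i) (al i)) :
    v.cub al = 0 := by
  classical
  let x0 : {x // v.Us x} := ⟨_, _, ok_y (hal 0), rfl⟩
  have := Fintype.ofFinite {x // v.Us x}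
  rw [← v.red_cub x0 hal]
  refine hV p Γ δ s w t _ (v.red x0) ?_ N La hA hF al hal hT
  rintro ⟨x, q, hq, rfl⟩
  exact ⟨q, hq, Subtype.ext (v.em'_val x0 hq)⟩

open Classical in
/-- the side `b` of a wall is strong: it has tests in more than half of the directions `D` -/
def Wall.Strong {s : Type} [Fintype s] [DecidableEq s] (w : Wall p Γ δ s) (N La : ℕ) (b : Bool)
    (D : ZMod p → s) : Prop :=
  p < 2 * Nat.card {d : ZMod p // w.Test N La b (D d)}

theorem strong_or (hD : DichS) (hp : p ≠ 2) {s : Type} [Fintype s] [DecidableEq s]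
    (w : Wall p Γ δ s) {N La : ℕ} (hA : w.Adm N La) {D : ZMod p → s}
    (h : ∀ d, w.kd (D d) = none) : w.Strong N La true D ∨ w.Strong N La false D := by
  classical
  have hp0 : NeZero p := ⟨(Fact.out : p.Prime).ne_zero⟩
  unfold Wall.Strong
  rw [Nat.subtype_card (Finset.univ.filter fun d => w.Test N La true (D d)) (by simp),
    Nat.subtype_card (Finset.univ.filter fun d => w.Test N La false (D d)) (by simp)]
  have h1 : (Finset.univ : Finset (ZMod p)) ⊆
      (Finset.univ.filter fun d => w.Test N La true (D d)) ∪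
        Finset.univ.filter fun d => w.Test N La false (D d) := fun d _ => by
    simpa using hD p Γ δ s w N La hA (D d) (h d)
  have h2 := (Finset.card_le_card h1).trans (Finset.card_union_le _ _)
  rw [Finset.card_univ, ZMod.card] at h2
  obtain ⟨k, hk⟩ := (Fact.out : p.Prime).odd_of_ne_two hp
  omega

theorem pigeon3 (A : Fin 3 → Finset (ZMod p)) (h : ∀ i, p < 2 * (A i).card) (m0 : ZMod p) :
    ∃ d : Fin 3 → ZMod p, (∀ i, d i ∈ A i) ∧ ∑ i, d i = m0 := by
  classical
  have hp0 : NeZero p := ⟨(Fact.out : p.Prime).ne_zero⟩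
  obtain ⟨c, hc⟩ : (A 2).Nonempty := Finset.card_pos.1 (by have := h 2; omega)
  have hi : Function.Injective fun b : ZMod p => m0 - c - b := sub_right_injective
  have h1 : ¬ Disjoint (A 0) ((A 1).map ⟨_, hi⟩) := fun hd => by
    have h2 := Finset.card_le_univ (A 0 ∪ (A 1).map ⟨_, hi⟩)
    rw [Finset.card_union_of_disjoint hd, Finset.card_map, ZMod.card] at h2
    have := h 0
    have := h 1
    omega
  obtain ⟨a, ha, ha'⟩ := Finset.not_disjoint_iff.1 h1
  obtain ⟨b, hb, rfl⟩ := Finset.mem_map.1 ha'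
  refine ⟨![m0 - c - b, b, c], fun i => ?_, ?_⟩
  · fin_cases i
    · exact ha
    · exact hb
    · exact hc
  · simp [Fin.sum_univ_three]

/-- three strong sides cannot point to one vertex -/
theorem no_three (hV : VertexS) [∀ i, DecidableEq (s i)] [Finite V] (v : Vx w t V) {N La : ℕ}
    (hA : ∀ i, (w i).Adm N La) (hF : ∀ q, Ok w t q → v.FV q < N) {D : ∀ i, ZMod p → s i}
    (hD : ∀ i d, (w i).kd (D i d) = none) {m0 : ZMod p} (hc : v.Cub D m0)
    (hS : ∀ i, (w i).Strong N La (t i) (D i)) : False := by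
  classical
  have hp0 : NeZero p := ⟨(Fact.out : p.Prime).ne_zero⟩
  let f : Fin 3 → ZMod p → ZMod p := fun i d => if t i = true then d else m0 - d
  have hf : ∀ i, Function.Injective (f i) := fun i => by
    simp only [f]
    split_ifs
    · exact Function.injective_id
    · exact sub_right_injective
  obtain ⟨e, he, hs⟩ := pigeon3 (fun i =>
    (Finset.univ.filter fun d => (w i).Test N La (t i) (D i d)).map ⟨f i, hf i⟩) (fun i => by
      have := hS i
      rw [Wall.Strong, Nat.subtype_card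
        (Finset.univ.filter fun d => (w i).Test N La (t i) (D i d)) (by simp)] at this
      rwa [Finset.card_map]) m0
  choose d hd hde using fun i => Finset.mem_map.1 (he i)
  refine hc d ?_ (vertex_gen hV v hA hF (fun i => hD i _) fun i => by simpa using hd i)
  exact (Finset.sum_congr rfl fun i _ => hde i).trans hs

theorem coreS_of (hD : DichS) (hV : VertexS) : CoreS := by
  intro p _ hp Γ _ δ s _ w D hDk m0 h
  classical
  choose V hfin v hv using h
  obtain ⟨N1, hN1⟩ := (Set.toFinite
    (Set.range fun x : (Fin 3 → Bool) × (Σ i, s i) × Bool => (v x.1).FV x.2)).bddAbove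
  have hN : ∀ t q, (v t).FV q < N1 + 1 := fun t q => Nat.lt_succ_of_le (hN1 ⟨(t, q), rfl⟩)
  have hA : ∀ i, (w i).Adm (N1 + 1) (2 * (N1 + 1) * p * (∑ j, Fintype.card (s j) + 1)) :=
    fun i => ⟨fun x => by rw [← (v fun _ => true).hF]; exact hN _ _,
      Nat.mul_le_mul_left _ (Nat.succ_le_succ (Finset.single_le_sum
        (f := fun j => Fintype.card (s j)) (fun _ _ => Nat.zero_le _) (Finset.mem_univ i)))⟩
  have hs : ∀ i, ∃ b, (w i).Strong _ _ b (D i) := fun i =>
    (strong_or hD hp (w i) (hA i) (hDk i)).elim (fun h => ⟨_, h⟩) fun h => ⟨_, h⟩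
  choose t ht using hs
  have := hfin t
  exact no_three hV (v t) hA (fun q _ => hN t q) hDk (hv t) ht

end N255.Core
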