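import Crest.Agent.N255.Core.Gen

/-! Row 255, algebraic core: the arithmetic condition `Gd`. -/

set_option autoImplicit false

namespace N255.Core

open Finset

variable {p : ℕ} [hp : Fact p.Prime] {Γ : Type} [AddCommGroup Γ] {δ : Γ} {s : Type} [Fintype s]
  [DecidableEq s]

namespace Wall

variable (w : Wall p Γ δ s) (N La : ℕ)

/-- the `y`-degree -/
def ky (x : Ix s) : ℤ := ∑ i, if w.kd i = none then (x.2.1 i : ℤ) else 0

/-- the part of the weight carried by one variable, without the functions `y` -/
def gv (x : Ix s) (i : s) : ℤ :=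
  (if w.kd i = none then 0 else (x.2.1 i : ℤ) * (N + w.F i)) + if i ∈ x.2.2 then (N + w.F i : ℤ)
    else 0

/-- the largest value of `gv` -/
def tv (i : s) : ℤ := if w.kd i = none then (N + w.F i : ℤ) else p * (N + w.F i)

omit hp in
theorem wW_eq2 (x : Ix s) : w.wW N La x = 2 * La * x.1 + La * w.ky x + ∑ i, w.gv N x i := by
  unfold wW wt ky gv
  rw [sum_add_distrib (s := univ), sum_ite_mem, univ_inter, mul_sum, add_assoc (2 * (La : ℤ) * x.1),
    add_assoc (2 * (La : ℤ) * x.1), ← add_assoc (∑ i, (La : ℤ) * _), ← sum_add_distrib]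
  congr 2
  refine sum_congr rfl fun i _ => ?_
  beta_reduce
  split_ifs <;> ring

omit hp in
theorem gv_nonneg (x : Ix s) (i : s) : 0 ≤ w.gv N x i := by
  unfold gv
  split_ifs <;> positivity

omit hp in
theorem gv_le {x : Ix s} (hx : ∀ i, x.2.1 i < p) (i : s) : w.gv N x i ≤ w.tv N i := by
  have h1 : (x.2.1 i : ℤ) + 1 ≤ p := by exact_mod_cast hx i
  have h2 : (0 : ℤ) ≤ N + w.F i := by positivity
  unfold gv tv
  split_ifs <;> nlinarith

omit [DecidableEq s] in
theorem tv_le (i : s) : w.tv N i ≤ (p * (N + w.F i) : ℕ) := by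
  have h1 : (1 : ℤ) ≤ p := by exact_mod_cast hp.out.one_le
  have h2 : (0 : ℤ) ≤ N + w.F i := by positivity
  unfold tv
  push_cast
  split_ifs <;> nlinarith

omit hp [DecidableEq s] in
theorem mem_nr2 {b : Bool} {i : s} :
    i ∈ w.nr b ↔ w.kd i = some b ∨ (b = true ∧ w.kd i = none) := by simp [nr]

theorem gv_ld (b : Bool) {al : s} (hal : w.kd al = none) (i : s) :
    w.gv N (w.ld b al) i = if i ∈ w.nr b then w.tv N i else 0 := by
  have h1 : ((p - 1 : ℕ) : ℤ) = p - 1 := by rw [Nat.cast_sub hp.out.one_le]; simp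
  unfold gv tv
  by_cases hi : w.kd i = none
  · simp [hi, ld]
  · have : i ≠ al := fun e => hi (e ▸ hal)
    by_cases hn : i ∈ w.nr b
    · simp only [hi, ld, this, hn, if_true, if_false, h1]; ring
    · simp [hi, ld, this, hn]

theorem sum_gv_ld (b : Bool) {al : s} (hal : w.kd al = none) :
    ∑ i, w.gv N (w.ld b al) i = ∑ i ∈ w.nr b, w.tv N i := by
  simp only [w.gv_ld N b hal, sum_ite_mem, univ_inter]

/-- the largest `y`-degree -/
def kt : ℤ := ∑ i, if w.kd i = none then (p - 1 : ℤ) else 0

omit hp [DecidableEq s] in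
theorem ky_le {x : Ix s} (hx : ∀ i, x.2.1 i < p) : w.ky x ≤ w.kt :=
  sum_le_sum fun i _ => by
    have h1 : (x.2.1 i : ℤ) + 1 ≤ p := by exact_mod_cast hx i
    split_ifs <;> omega

omit hp [DecidableEq s] in
theorem ky_nonneg (x : Ix s) : 0 ≤ w.ky x :=
  sum_nonneg fun i _ => by split_ifs <;> positivity

theorem ky_ld_true {al : s} (hal : w.kd al = none) : w.ky (w.ld true al) = w.kt - 1 := by
  have h1 : ((p - 1 : ℕ) : ℤ) = p - 1 := by rw [Nat.cast_sub hp.out.one_le]; simp
  have h2 : ((p - 2 : ℕ) : ℤ) = p - 2 := by rw [Nat.cast_sub hp.out.two_le]; simp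
  have : (1 : ℤ) = ∑ i, if i = al then 1 else 0 := by simp
  rw [this, ky, kt, ← sum_sub_distrib]
  refine sum_congr rfl fun i _ => ?_
  by_cases hi : i = al
  · subst hi; simp only [hal, ld, if_true, h2]; ring
  · by_cases hk : w.kd i = none
    · simp [hk, ld, hi, mem_nr2, h1]
    · simp [hk, hi]

omit hp in
theorem ky_ld_false {al : s} (hal : w.kd al = none) : w.ky (w.ld false al) = 1 := by
  rw [ky, sum_eq_single al]
  · simp [hal, ld]
  · intro i _ hi
    by_cases hk : w.kd i = none
    · simp [hk, ld, hi, mem_nr2]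
    · simp [hk]
  · simp

omit hp in
theorem sum_gv_le (b : Bool) {x : Ix s} (hx : ∀ i, x.2.1 i < p) :
    ∑ i, w.gv N x i ≤ ∑ i ∈ w.nr b, w.tv N i + ∑ i ∈ (w.nr b)ᶜ, w.tv N i := by
  rw [sum_add_sum_compl]
  exact sum_le_sum fun i _ => w.gv_le N hx i

theorem gd_of {b : Bool} {al : s} (hal : w.kd al = none) (pos : ∀ i, 0 < N + w.F i)
    (le : ∀ i, w.kd i = none → N + w.F i ≤ La)
    (hB : ∑ i ∈ (w.nr b)ᶜ, p * (N + w.F i) < La)
    (hH : ∑ i ∈ w.nr b, p * (N + w.F i) < La ∨ (Odd La ∧ ∀ i, Even (N + w.F i))) :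
    w.Gd N La b al := by
  have hf : ∑ i ∈ (w.nr b)ᶜ, w.tv N i < La :=
    (sum_le_sum fun i _ => w.tv_le N i).trans_lt (by exact_mod_cast hB)
  have hL : (0 : ℤ) < La := by exact_mod_cast (Nat.zero_le _).trans_lt hB
  refine ⟨pos, le, fun x hx h => ?_, fun hb x hx hn h => ?_⟩
  · rw [wW_eq2, wW_eq2, w.sum_gv_ld N b hal] at h
    have h1 := w.sum_gv_le N b hx
    have h2 := w.ky_le hx
    have h3 := w.ky_nonneg x
    cases b
    · have e : w.jw false x = x.1 + w.ky x := by simp [jw, ky]
      rw [ky_ld_false w hal, show (w.ld false al).1 = -1 from rfl] at h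
      rw [e]
      by_contra hc
      have : 2 * x.1 + w.ky x + 2 ≤ 0 := by omega
      nlinarith
    · have e : w.jw true x = x.1 := by simp [jw]
      rw [ky_ld_true w hal, show (w.ld true al).1 = 0 from rfl] at h
      rw [e]
      by_contra hc
      have : 2 * x.1 + w.ky x - w.kt + 2 ≤ 0 := by omega
      nlinarith
  · subst hb
    by_contra hc
    rw [not_or] at hc
    obtain ⟨hc1, hc2⟩ := hc
    have hfar : ∀ i, i ∉ w.nr true → x.2.1 i = 0 ∧ i ∉ x.2.2 := fun i hi => hn i (by
      rw [mem_nr2] at hi
      rcases hk : w.kd i with _ | _ | _ <;> simp_all)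
    have hG : ∑ i, w.gv N x i = ∑ i ∈ w.nr true, w.gv N x i := by
      rw [← sum_add_sum_compl (w.nr true), sum_eq_zero (s := (w.nr true)ᶜ), add_zero]
      intro i hi
      obtain ⟨h1, h2⟩ := hfar i (mem_compl.1 hi)
      simp [gv, h1, h2]
    rw [wW_eq2, wW_eq2, w.sum_gv_ld N true hal, ky_ld_true w hal,
      show (w.ld true al).1 = 0 from rfl, hG] at h
    have h1 : ∑ i ∈ w.nr true, w.gv N x i ≤ ∑ i ∈ w.nr true, w.tv N i :=
      sum_le_sum fun i _ => w.gv_le N hx i
    have h2 := w.ky_le hx
    have h4 : 0 ≤ 2 * x.1 + w.ky x - w.kt + 1 := by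
      by_contra h5
      have : 2 * x.1 + w.ky x - w.kt + 2 ≤ 0 := by omega
      nlinarith
    have hj : x.1 = 0 := by omega
    rw [hj] at h h4
    by_cases hk : w.ky x = w.kt
    · rw [hk] at h
      have h5 : ∑ i ∈ w.nr true, w.tv N i - ∑ i ∈ w.nr true, w.gv N x i = La := by linarith
      rcases hH with hH | ⟨hO, hE⟩
      · have h6 : ∑ i ∈ w.nr true, w.tv N i < La :=
          (sum_le_sum fun i _ => w.tv_le N i).trans_lt (by exact_mod_cast hH)
        have h7 : 0 ≤ ∑ i ∈ w.nr true, w.gv N x i := sum_nonneg fun i _ => w.gv_nonneg N x i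
        omega
      · have hE' : ∀ i, (2 : ℤ) ∣ N + w.F i := fun i => by exact_mod_cast (hE i).two_dvd
        have h6 : (2 : ℤ) ∣ La := by
          rw [← h5]
          refine dvd_sub (dvd_sum fun i _ => ?_) (dvd_sum fun i _ => ?_)
          · unfold tv
            split_ifs
            · exact hE' i
            · exact (hE' i).mul_left _
          · unfold gv
            refine dvd_add ?_ ?_ <;> split_ifs
            · exact dvd_zero _
            · exact (hE' i).mul_left _
            · exact hE' i
            · exact dvd_zero _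
        obtain ⟨c, hc⟩ := hO
        omega
    · have hk' : w.ky x = w.kt - 1 := by omega
      rw [hk'] at h
      have h5 : ∑ i ∈ w.nr true, w.gv N x i = ∑ i ∈ w.nr true, w.tv N i := by linarith
      have h6 := (sum_eq_sum_iff_of_le fun i _ => w.gv_le N hx i).1 h5
      have h7 : ∀ i ∈ w.nr true, i ∈ x.2.2 ∧ (w.kd i ≠ none → x.2.1 i = p - 1) := fun i hi => by
        have e := h6 i hi
        have h8 : (0 : ℤ) < N + w.F i := by exact_mod_cast pos i
        have h9 : (x.2.1 i : ℤ) + 1 ≤ p := by exact_mod_cast hx i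
        unfold gv tv at e
        by_cases hk : w.kd i = none
        · refine ⟨?_, fun h => absurd hk h⟩
          by_contra hS
          simp only [hk, hS, if_true, if_false] at e
          omega
        · by_cases hS : i ∈ x.2.2
          · simp only [hk, hS, if_true, if_false] at e
            have : (x.2.1 i : ℤ) + 1 = p := by
              have : ((x.2.1 i : ℤ) + 1 - p) * (N + w.F i) = 0 := by linarith
              rcases mul_eq_zero.1 this with h | h <;> omega
            exact ⟨hS, fun _ => by omega⟩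
          · simp only [hk, hS, if_false] at e
            nlinarith
      let df : s → ℤ := fun i => if w.kd i = none then (p - 1 : ℤ) - x.2.1 i else 0
      have hd0 : ∀ i, 0 ≤ df i := fun i => by
        have h9 : (x.2.1 i : ℤ) + 1 ≤ p := by exact_mod_cast hx i
        simp only [df]
        split_ifs <;> omega
      have hd1 : ∑ i, df i = 1 := by
        have : ∑ i, df i = w.kt - w.ky x := by
          rw [kt, ky, ← sum_sub_distrib]
          refine sum_congr rfl fun i _ => ?_
          simp only [df]
          split_ifs <;> simp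
        omega
      obtain ⟨be, -, hbe⟩ := exists_ne_zero_of_sum_ne_zero (s := univ) (f := df) (by omega)
      have hs := add_sum_erase univ df (mem_univ be)
      have hr : 0 ≤ ∑ i ∈ univ.erase be, df i := sum_nonneg fun i _ => hd0 i
      have hb0 := hd0 be
      have hb1 : df be = 1 := by omega
      have hr0 := (sum_eq_zero_iff_of_nonneg fun i _ => hd0 i).1
        (show ∑ i ∈ univ.erase be, df i = 0 by omega)
      have hkb : w.kd be = none := by
        by_contra hk
        simp [df, hk] at hbe
      refine hc1 ⟨be, hkb, Prod.ext hj (Prod.ext (funext fun i => ?_) ?_)⟩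
      · simp only [ld, if_true]
        by_cases hi : i = be
        · subst hi
          simp only [df, hkb, if_true] at hb1
          rw [if_pos rfl]
          omega
        · rw [if_neg hi]
          by_cases hin : i ∈ w.nr true
          · rw [if_pos hin]
            by_cases hk : w.kd i = none
            · have := hr0 i (by simp [hi])
              simp only [df, hk, if_true] at this
              omega
            · exact (h7 i hin).2 hk
          · rw [if_neg hin]; exact (hfar i hin).1
      · ext i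
        simp only [ld]
        exact ⟨fun h => by_contra fun h' => (hfar i h').2 h, fun h => (h7 i h).1⟩

omit [DecidableEq s] in
theorem Adm.sum_lt {w : Wall p Γ δ s} {N La : ℕ} (h : w.Adm N La) (A : Finset s) {al : s} :
    ∑ i ∈ A, p * (N + w.F i) < La := by
  have h0 : 0 < N := (Nat.zero_le _).trans_lt (h.1 al)
  have h1 : ∑ i ∈ A, p * (N + w.F i) ≤ A.card • (2 * N * p) := sum_le_card_nsmul _ _ _
    fun i _ => by have := h.1 i; nlinarith
  have h2 := card_le_univ A
  have h3 := h.2
  have h4 : 0 < 2 * N * p := by have := hp.out.pos; positivity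
  rw [smul_eq_mul] at h1
  nlinarith

theorem Adm.gd {w : Wall p Γ δ s} {N La : ℕ} (h : w.Adm N La) (b : Bool) {al : s}
    (hal : w.kd al = none) : w.Gd N La b al :=
  w.gd_of N La hal (fun i => by have := h.1 i; omega)
    (fun i _ => by
      have h1 := h.sum_lt {i} (al := al)
      rw [sum_singleton] at h1
      have := hp.out.one_le
      nlinarith)
    (h.sum_lt _ (al := al)) (Or.inl (h.sum_lt _ (al := al)))

end Wall

end N255.Core
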