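import Crest.Agent.N255.Core.Defs
import Crest.Agent.N255.Dr.Pb

/-! Row 255, algebraic core: tests, the dichotomy `DichS` and the vertex theorem `VertexS`. -/

set_option autoImplicit false

namespace N255.Core

open N255.Dr N255.Dr.O LaurentPolynomial

/-- the coefficient ring `k[u, u⁻¹]` -/
abbrev Au (p : ℕ) : Type := LaurentPolynomial (ZMod p)

instance factA (p : ℕ) : Fact ((p : Au p) = 0) :=
  ⟨by rw [← map_natCast (algebraMap (ZMod p) (Au p)), ZMod.natCast_self, map_zero]⟩

/-- indices of monomial forms `u^j z^a dz^S` -/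
abbrev Ix (s : Type) : Type := ℤ × (s → ℕ) × Finset s

section
variable {p : ℕ} [Fact p.Prime] {s : Type} [Fintype s] [DecidableEq s]

/-- the monomial form `u^j z^a dz^S` -/
noncomputable def mu (x : Ix s) : Om p (Au p) s := (T x.1 : Au p) • Om.mon x.2.1 x.2.2

/-- all monomials occurring in `ω` satisfy `P` -/
def In (P : Ix s → Prop) (ω : Om p (Au p) s) : Prop :=
  ∀ x : Ix s, (Om.co x.2.1 x.2.2 ω).coeff x.1 ≠ 0 → P x

/-- an additive weight on monomial forms -/
def wt (wu : ℤ) (wz wd : s → ℤ) (x : Ix s) : ℤ :=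
  wu * x.1 + ∑ i, (x.2.1 i : ℤ) * wz i + ∑ i ∈ x.2.2, wd i

variable {Γ : Type} [AddCommGroup Γ] {δ : Γ}

namespace Wall

variable (w : Wall p Γ δ s) (N La : ℕ)

/-- the pure weight `F` -/
def wF : Ix s → ℤ := wt 0 (fun i => N + w.F i) fun i => N + w.F i

/-- the main weight -/
def wW : Ix s → ℤ :=
  wt (2 * La) (fun i => if w.kd i = none then (La : ℤ) else N + w.F i) fun i => N + w.F i

/-- admissible parameters -/
def Adm : Prop := (∀ i, w.F i < N) ∧ 2 * N * p * (Fintype.card s + 1) ≤ La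

/-- the near variables of the side `b` (with `y` on the `M` side `b = true`) -/
def nr (b : Bool) : Finset s :=
  Finset.univ.filter fun i => w.kd i = some b ∨ (b = true ∧ w.kd i = none)

/-- `u^j` times the Thom form of the near variables -/
def h0 (b : Bool) (j : ℤ) : Ix s := (j, fun i => if i ∈ w.nr b then p - 1 else 0, w.nr b)

/-- the leading monomials: `T_X y^(top - e_al) dy` and `u⁻¹ y_al T_X'` -/
def ld (b : Bool) (al : s) : Ix s :=
  (if b = true then 0 else -1,
    fun i => if i = al then (if b = true then p - 2 else 1) else if i ∈ w.nr b then p - 1 else 0,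
    w.nr b)

/-- the allowed closed, non exact parts -/
def Hm (b : Bool) (x : Ix s) : Prop :=
  (x = w.h0 b x.1 ∧ 0 ≤ x.1) ∨ (x ≠ w.h0 b x.1 ∧
    if b = true then w.wF N (w.h0 b 0) ≤ w.wF N x else w.wF N (w.h0 b 0) < w.wF N x)

/-- the allowed non leading terms -/
def Lt (b : Bool) (al : s) (x : Ix s) : Prop :=
  if b = true then w.wW N La (w.ld b al) ≤ w.wW N La x ∧ ∀ be, w.kd be = none → x ≠ w.ld b be
  else w.wW N La (w.ld b al) < w.wW N La x

/-- `exp (-W/u)` on the `M` side, `exp (W/u)` on the `L` side -/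
noncomputable def Eu (b : Bool) : O p (Au p) s :=
  O.E ((if b = true then -T (-1) else T (-1) : Au p) • O.bc (Au p) w.W)

/-- a test for the side `b` in the direction `al` -/
def Test (b : Bool) (al : s) : Prop :=
  ∃ ze h : Om p (Au p) s, Om.d h = 0 ∧ In (w.Hm N b) h ∧
    In (w.Lt N La b al) (w.Eu b • (Om.d ze + h) - mu (w.ld b al))

end Wall

end

/-- THE DICHOTOMY (owner helper22) -/
def DichS : Prop :=
  ∀ (p : ℕ) [Fact p.Prime] (Γ : Type) [AddCommGroup Γ] (δ : Γ) (s : Type) [Fintype s]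
    [DecidableEq s] (w : Wall p Γ δ s) (N La : ℕ), w.Adm N La → ∀ al, w.kd al = none →
    w.Test N La true al ∨ w.Test N La false al

/-- THE VERTEX THEOREM (owner helper7), no extra variables -/
def VertexS : Prop :=
  ∀ (p : ℕ) [Fact p.Prime] (Γ : Type) [AddCommGroup Γ] (δ : Γ) (s : Fin 3 → Type)
    [∀ i, Fintype (s i)] [∀ i, DecidableEq (s i)] (w : ∀ i, Wall p Γ δ (s i)) (t : Fin 3 → Bool)
    (V : Type) [Fintype V] [DecidableEq V] (v : Vx w t V),
    (∀ x : V, ∃ q, Ok w t q ∧ v.em q = x) → ∀ N La : ℕ, (∀ i, (w i).Adm N La) →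
    (∀ q, Ok w t q → v.FV q < N) → ∀ al : ∀ i, s i, (∀ i, (w i).kd (al i) = none) →
    (∀ i, (w i).Test N La (t i) (al i)) → v.cub al = 0

end N255.Core
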