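import Crest.Agent.N255.Core.Gen
import Crest.Agent.N255.Dr.Br

/-! Row 255, algebraic core: tests can be moved (`moveG_holds`). -/

set_option autoImplicit false

namespace N255.Core

open Finset N255.Dr N255.Dr.O LaurentPolynomial

section
variable {p : ℕ} [Fact p.Prime] {V : Type} [Fintype V]

theorem Hi.mem_mx {FV : V → ℕ} {n : ℕ} {f : O p (ZMod p) V} (h : Hi FV n f) : f ∈ mx := by
  rw [O.mem_mx, ← cf_zero]
  by_contra hne
  simpa using h 0 hne

theorem Hi.le {FV : V → ℕ} {n : ℕ} {f : O p (ZMod p) V} (h : Hi FV n f) {wz : V → ℤ}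
    (hz : ∀ v, (FV v : ℤ) ≤ wz v) {a : V → ℕ} (ha : cf a f ≠ 0) :
    (n : ℤ) + 1 ≤ ∑ v, a v • wz v := by
  have h1 : ((n + 1 : ℕ) : ℤ) ≤ ((∑ v, a v * FV v : ℕ) : ℤ) := Int.ofNat_le.2 (h a ha)
  push_cast at h1
  refine h1.trans (sum_le_sum fun v _ => ?_)
  rw [nsmul_eq_mul]
  exact mul_le_mul_of_nonneg_left (hz v) (by positivity)

theorem Hi.fn_mem {FV : V → ℕ} {n : ℕ} {f : O p (ZMod p) V} (h : Hi FV n f) (wu : ℤ)
    {wz : V → ℤ} (wd : V → ℤ) (hz : ∀ v, (FV v : ℤ) ≤ wz v) :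
    Om.fn (bc (Au p) f) ∈ Om.Fil (k := ZMod p) wu wz wd (n + 1) :=
  Om.fn_bc_mem fun a ha => by simpa [gw] using h.le hz ha

theorem Hi.d_mem [DecidableEq V] {FV : V → ℕ} {n : ℕ} {f : O p (ZMod p) V} (h : Hi FV n f)
    (wu : ℤ) {wz wd : V → ℤ} (hz : ∀ v, (FV v : ℤ) ≤ wz v) (hd : ∀ v, (FV v : ℤ) ≤ wd v) :
    Om.d (Om.fn (bc (Au p) f)) ∈ Om.Fil (k := ZMod p) wu wz wd (n + 1) := by
  have h1 := Om.Sw_d_self (h.fn_mem wu (wz := fun v => (FV v : ℤ)) (fun v => (FV v : ℤ))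
    fun _ => le_rfl)
  refine Om.Su_mono (fun j a S _ hx => hx.trans ?_) h1
  simp only [gw]
  refine add_le_add (add_le_add le_rfl (sum_le_sum fun v _ => ?_)) (sum_le_sum fun v _ => hd v)
  exact nsmul_le_nsmul_right (hz v) _

end

variable {p : ℕ} [hp : Fact p.Prime] {Γ : Type} [AddCommGroup Γ] {δ : Γ} {s s' : Type}
  [Fintype s] [DecidableEq s] [Fintype s'] [DecidableEq s']

namespace Wall
variable (w : Wall p Γ δ s) (N La : ℕ)

omit hp [DecidableEq s] in
theorem mem_nr {b : Bool} {i : s} :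
    i ∈ w.nr b ↔ w.kd i = some b ∨ (b = true ∧ w.kd i = none) := by simp [nr]

omit hp [DecidableEq s] in
theorem not_mem_nr {b : Bool} {i : s} (h : w.kd i = some (!b)) : i ∉ w.nr b := by
  rw [mem_nr, h]; cases b <;> simp

omit hp in
theorem noFar_h0 (b : Bool) (j : ℤ) : w.NoFar b (w.h0 b j) := fun i hi => by
  simp [h0, w.not_mem_nr hi]

omit hp in
theorem noFar_ld (b : Bool) {al : s} (hal : w.kd al = none) : w.NoFar b (w.ld b al) :=
  fun i hi => by
    have : i ≠ al := by rintro rfl; rw [hal] at hi; cases hi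
    simp [ld, w.not_mem_nr hi, this]

omit hp [DecidableEq s] in
theorem wF_eq (x : Ix s) : w.wF N x
    = gw 0 (fun i => (N + w.F i : ℤ)) (fun i => (N + w.F i : ℤ)) x.1 x.2.1 x.2.2 := wt_eq _ _ _ _

omit hp [DecidableEq s] in
theorem wW_eq (x : Ix s) : w.wW N La x
    = gw (2 * La : ℤ) (fun i => (w.wz N La i : ℤ)) (fun i => (N + w.F i : ℤ)) x.1 x.2.1 x.2.2 := by
  rw [wW, wt_eq]
  congr 1
  funext i
  simp only [wz]
  split_ifs <;> simp

omit hp in
theorem wF_h0 (b : Bool) (j : ℤ) : w.wF N (w.h0 b j) = w.wF N (w.h0 b 0) := by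
  simp [wF_eq, gw, h0]

theorem wW_ld_true {al : s} (hal : w.kd al = none) :
    w.wW N La (w.ld true al) = w.wW N La (w.h0 true 0) - La := by
  have h1 : (w.h0 true 0).2.1 = (w.ld true al).2.1 + Pi.single al 1 := by
    funext i
    have := hp.out.two_le
    by_cases hi : i = al
    · subst hi
      have : i ∈ w.nr true := w.mem_nr.2 (Or.inr ⟨rfl, hal⟩)
      simp only [h0, ld, this, if_true, Pi.add_apply, Pi.single_eq_same]; omega
    · simp [h0, ld, hi]
  rw [wW_eq, wW_eq, h1]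
  simp only [gw, Pi.add_apply, add_smul, sum_add_distrib, sum_single_smul, one_smul, wz, hal,
    if_true]
  simp only [h0, ld, if_true]
  ring

omit hp in
theorem hm_of_lt {b : Bool} {x : Ix s} (h : w.wF N (w.h0 b 0) < w.wF N x) : w.Hm N b x := by
  refine Or.inr ⟨fun hx => ?_, ?_⟩
  · rw [hx, w.wF_h0 N b x.1] at h; exact lt_irrefl _ h
  · split_ifs
    · exact h.le
    · exact h

omit hp in
theorem le_of_hm {b : Bool} {x : Ix s} (h : w.Hm N b x) : w.wF N (w.h0 b 0) ≤ w.wF N x := by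
  rcases h with ⟨h, -⟩ | ⟨-, h⟩
  · rw [h, w.wF_h0 N b x.1]
  · split_ifs at h
    · exact h
    · exact h.le

theorem lt_of_lt {b : Bool} {al : s} (hal : w.kd al = none) {x : Ix s}
    (h : w.wW N La (w.ld b al) < w.wW N La x) : w.Lt N La b al x := by
  unfold Lt
  split_ifs with hb
  · subst hb
    refine ⟨h.le, fun be hbe hx => ?_⟩
    rw [hx, w.wW_ld_true N La hal, w.wW_ld_true N La hbe] at h
    exact lt_irrefl _ h
  · exact h

omit hp in
theorem le_of_lt {b : Bool} {al : s} {x : Ix s} (h : w.Lt N La b al x) :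
    w.wW N La (w.ld b al) ≤ w.wW N La x := by
  unfold Lt at h
  split_ifs at h
  · exact h.1
  · exact h.le

end Wall

namespace Mv
variable {w : Wall p Γ δ s} {w' : Wall p Γ δ s'} {N La : ℕ} {b : Bool} (m : Mv w w' N La b)

/-- transport of monomials without far factors -/
def tr (x : Ix s) : Ix s' := (x.1, Om.push m.e x.2.1, x.2.2.image m.e)

omit [DecidableEq s] in
theorem push_e {a : s → ℕ} (ha : ∀ i, w.kd i = some (!b) → a i = 0) {i : s}
    (hi : w.kd i ≠ some (!b)) : Om.push m.e a (m.e i) = a i :=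
  Om.push_apply fun j hj h => m.inj (fun h' => hj (ha j h')) hi h

omit [DecidableEq s] in
theorem push_eq {a : s → ℕ} (ha : ∀ i, w.kd i = some (!b) → a i = 0) {a' : s' → ℕ}
    (h1 : ∀ i, w.kd i ≠ some (!b) → a' (m.e i) = a i)
    (h2 : ∀ v, w'.kd v = some (!b) → a' v = 0) : Om.push m.e a = a' := by
  funext v
  by_cases hv : w'.kd v = some (!b)
  · rw [h2 v hv]
    refine Om.push_eq_zero fun j hj h => ?_
    have h3 : w.kd j ≠ some (!b) := fun h' => hj (ha j h')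
    exact h3 (by rw [← m.kd j h3, h, hv])
  · obtain ⟨i, hi, rfl⟩ := m.onto v hv
    rw [m.push_e ha hi, h1 i hi]

theorem tr_inj {x y : Ix s} (hx : w.NoFar b x) (hy : w.NoFar b y) (h : m.tr x = m.tr y) :
    x = y := by
  obtain ⟨j, a, S⟩ := x
  obtain ⟨j', a', S'⟩ := y
  simp only [tr, Prod.mk.injEq] at h ⊢
  refine ⟨h.1, funext fun i => ?_, ?_⟩
  · by_cases hi : w.kd i = some (!b)
    · exact (hx i hi).1.trans (hy i hi).1.symm
    · exact (m.push_e (fun i h => (hx i h).1) hi).symm.trans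
        ((congrFun h.2.1 _).trans (m.push_e (fun i h => (hy i h).1) hi))
  · have key : ∀ {S S' : Finset s}, (∀ i, w.kd i = some (!b) → i ∉ S) →
        (∀ i, w.kd i = some (!b) → i ∉ S') → S.image m.e = S'.image m.e → S ⊆ S' := by
      intro S S' h1 h2 h3 i hi
      obtain ⟨k, hk, hk'⟩ := mem_image.1 (h3 ▸ mem_image_of_mem m.e hi)
      rwa [← m.inj (fun h' => h2 k h' hk) (fun h' => h1 i h' hi) hk']
    exact Subset.antisymm (key (fun i h => (hx i h).2) (fun i h => (hy i h).2) h.2.2)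
      (key (fun i h => (hy i h).2) (fun i h => (hx i h).2) h.2.2.symm)

theorem e_mem_nr {i : s} (hi : w.kd i ≠ some (!b)) : m.e i ∈ w'.nr b ↔ i ∈ w.nr b := by
  rw [Wall.mem_nr, Wall.mem_nr, m.kd i hi]

theorem image_nr : (w.nr b).image m.e = w'.nr b := by
  ext v
  rw [mem_image]
  constructor
  · rintro ⟨i, hi, rfl⟩
    exact (m.e_mem_nr fun h => w.not_mem_nr h hi).2 hi
  · intro hv
    obtain ⟨i, hi, rfl⟩ := m.onto v fun h => w'.not_mem_nr h hv
    exact ⟨i, (m.e_mem_nr hi).1 hv, rfl⟩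

theorem tr_h0 (j : ℤ) : m.tr (w.h0 b j) = w'.h0 b j := by
  refine Prod.ext rfl (Prod.ext ?_ m.image_nr)
  refine m.push_eq (fun i h => (w.noFar_h0 b j i h).1) (fun i hi => ?_)
    fun v h => (w'.noFar_h0 b j v h).1
  simp only [Wall.h0, m.e_mem_nr hi]

omit [DecidableEq s] in
theorem kd_e {al : s} (hal : w.kd al = none) : w'.kd (m.e al) = none := by
  rw [m.kd al (by rw [hal]; simp), hal]

theorem tr_ld {al : s} (hal : w.kd al = none) : m.tr (w.ld b al) = w'.ld b (m.e al) := by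
  refine Prod.ext rfl (Prod.ext ?_ m.image_nr)
  refine m.push_eq (fun i h => (w.noFar_ld b hal i h).1) (fun i hi => ?_)
    fun v h => (w'.noFar_ld b (m.kd_e hal) v h).1
  have : m.e i = m.e al ↔ i = al :=
    ⟨fun h => m.inj hi (by rw [Set.mem_ofPred_eq, hal]; simp) h, fun h => h ▸ rfl⟩
  simp only [Wall.ld, m.e_mem_nr hi, this]

omit [DecidableEq s] in
theorem gw_tr {x : Ix s} (hx : w.NoFar b x) (wu : ℤ) {wz wd : s → ℤ} {wz' wd' : s' → ℤ}
    (hz : ∀ i, w.kd i ≠ some (!b) → wz' (m.e i) = wz i)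
    (hd : ∀ i, w.kd i ≠ some (!b) → wd' (m.e i) = wd i) :
    gw wu wz' wd' (m.tr x).1 (m.tr x).2.1 (m.tr x).2.2 = gw wu wz wd x.1 x.2.1 x.2.2 := by
  simp only [gw, tr]
  congr 1
  · congr 1
    rw [← Finset.sum_fiberwise univ m.e]
    refine sum_congr rfl fun v _ => ?_
    rw [Om.push, sum_smul]
    refine sum_congr rfl fun i hi => ?_
    by_cases h : w.kd i = some (!b)
    · simp [(hx i h).1]
    · rw [← (mem_filter.1 hi).2, hz i h]
  · rw [sum_image fun i hi j hj h => m.inj (fun h' => (hx i h').2 hi) (fun h' => (hx j h').2 hj) h]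
    exact sum_congr rfl fun i hi => hd i fun h' => (hx i h').2 hi

omit [DecidableEq s] in
theorem wz_e {i : s} (hi : w.kd i ≠ some (!b)) : w'.wz N La (m.e i) = w.wz N La i := by
  simp only [Wall.wz, m.kd i hi, m.hF i hi]

omit [DecidableEq s] in
theorem wF_tr {x : Ix s} (hx : w.NoFar b x) : w'.wF N (m.tr x) = w.wF N x := by
  rw [Wall.wF_eq, Wall.wF_eq]
  exact m.gw_tr hx _ (fun i hi => by rw [m.hF i hi]) fun i hi => by rw [m.hF i hi]

omit [DecidableEq s] in
theorem wW_tr {x : Ix s} (hx : w.NoFar b x) : w'.wW N La (m.tr x) = w.wW N La x := by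
  rw [Wall.wW_eq, Wall.wW_eq]
  exact m.gw_tr hx _ (fun i hi => by rw [m.wz_e hi]) fun i hi => by rw [m.hF i hi]

theorem hm_tr {x : Ix s} (hx : w.NoFar b x) (h : w.Hm N b x) : w'.Hm N b (m.tr x) := by
  rcases h with ⟨h, h0⟩ | ⟨h, h1⟩
  · exact Or.inl ⟨by rw [h, m.tr_h0]; rfl, h0⟩
  · refine Or.inr ⟨fun h2 => h (m.tr_inj hx (w.noFar_h0 b _) (h2.trans (m.tr_h0 _).symm)), ?_⟩
    rwa [← m.tr_h0, m.wF_tr hx, m.wF_tr (w.noFar_h0 b _)]

theorem lt_tr {al : s} (hal : w.kd al = none) {x : Ix s} (hx : w.NoFar b x)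
    (h : w.Lt N La b al x) : w'.Lt N La b (m.e al) (m.tr x) := by
  unfold Wall.Lt at h ⊢
  rw [← m.tr_ld hal, m.wW_tr hx, m.wW_tr (w.noFar_ld b hal)]
  split_ifs at h ⊢
  · refine ⟨h.1, fun be hbe h2 => ?_⟩
    obtain ⟨i, hi, rfl⟩ := m.onto be (by rw [hbe]; simp)
    have hi' : w.kd i = none := by rw [← m.kd i hi, hbe]
    exact h.2 i hi' (m.tr_inj hx (w.noFar_ld b hi') (h2.trans (m.tr_ld hi').symm))
  · exact h

/-- the substitution over the Laurent ring -/
noncomputable def ph : O p (Au p) s →ₐ[Au p] O p (Au p) s' := bcH (Au p) m.io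

/-- its leading part -/
noncomputable def ps : O p (Au p) s →ₐ[Au p] O p (Au p) s' :=
  lift (fun i => if w.kd i = some (!b) then 0 else z (m.e i)) fun i => by
    split_ifs
    · exact zero_pow hp.out.ne_zero
    · exact z_pow _

omit [DecidableEq s] in
theorem ps_z (i : s) : m.ps (z i) = if w.kd i = some (!b) then 0 else z (m.e i) := lift_z _ _ _

omit [DecidableEq s] in
theorem ph_sub (i : s) : m.ph (z i) - m.ps (z i) = 0 ∧ w.kd i = none ∨ w.kd i ≠ none ∧
    ∃ f, Hi (fun i => N + w'.F i) (N + w.F i) f ∧ m.ph (z i) - m.ps (z i) = bc (Au p) f := by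
  rw [ps_z, ph, bcH_z]
  rcases h : w.kd i with _ | c
  · left; simp [m.hy i h]
  · right
    refine ⟨by simp, ?_⟩
    by_cases hc : c = b
    · subst hc
      exact ⟨_, m.near i h, by simp⟩
    · have : c = !b := by cases c <;> cases b <;> simp_all
      subst this
      exact ⟨_, m.far i h, by simp⟩

omit [DecidableEq s] in
theorem io_mem (i : s) : m.io (z i) ∈ (mx : Ideal (O p (ZMod p) s')) := by
  rcases h : w.kd i with _ | c
  · rw [m.hy i h]; exact z_mem _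
  · by_cases hc : c = b
    · subst hc
      simpa using add_mem (m.near i h).mem_mx (z_mem (m.e i))
    · have : c = !b := by cases c <;> cases b <;> simp_all
      subst this
      exact (m.far i h).mem_mx

theorem pb_ps (x : Ix s) : Om.pb m.ps (mu x) = 0 ∨
    (w.NoFar b x ∧ ∃ ε : ℤ, ε * ε = 1 ∧ Om.pb m.ps (mu x) = ε • mu (m.tr x)) := by
  by_cases hx : w.NoFar b x
  · refine Or.inr ⟨hx, Om.pb_mu_of_z (k := ZMod p) m.ps m.e x.1 (fun i hi => ?_) ?_⟩
    · rw [ps_z, if_neg]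
      intro h
      exact hi.elim (fun h' => h' (hx i h).1) (hx i h).2
    · exact fun i hi j hj h => m.inj (fun h' => (hx i h').2 hi) (fun h' => (hx j h').2 hj) h
  · left
    simp only [Wall.NoFar, not_forall] at hx
    obtain ⟨i, hi, h⟩ := hx
    refine Om.pb_mu_eq_zero (k := ZMod p) m.ps x.1 (i := i) (by rw [ps_z, if_pos hi]) ?_
    by_contra h'
    push Not at h'
    exact h h'

theorem pb_ps_in {P : Ix s → Prop} {P' : Ix s' → Prop}
    (h : ∀ x, w.NoFar b x → P x → P' (m.tr x)) {ω : Om p (Au p) s} (hω : In P ω) :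
    In P' (Om.pb m.ps ω) := by
  rw [in_iff] at hω ⊢
  refine Om.Su_le (f := Om.pbk (k := ZMod p) m.ps) (fun j a S _ hP => ?_) hω
  rcases m.pb_ps (j, a, S) with h0 | ⟨hx, ε, -, h1⟩
  · exact (show Om.pbk (k := ZMod p) m.ps (Om.mu j a S) = 0 from h0) ▸ zero_mem _
  · exact (show Om.pbk (k := ZMod p) m.ps (Om.mu j a S) = _ from h1) ▸
      zsmul_mem (Om.mu_mem fun _ => h _ hx hP) _

theorem sub_Fil (wu : ℤ) {wz : s → ℤ} {wz' : s' → ℤ}
    (h1 : ∀ i, w.kd i ≠ some (!b) → wz' (m.e i) = wz i)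
    (h2 : ∀ i, w.kd i ≠ none → wz i = N + w.F i) (h3 : ∀ v, (N + w'.F v : ℤ) ≤ wz' v) {n : ℤ}
    {ω : Om p (Au p) s} (hω : ω ∈ Om.Fil (k := ZMod p) wu wz (fun i => (N + w.F i : ℤ)) n) :
    Om.pb m.ph ω - Om.pb m.ps ω
        ∈ Om.Fil (k := ZMod p) wu wz' (fun i => (N + w'.F i : ℤ)) (n + 1) ∧
      Om.pb m.ph ω ∈ Om.Fil (k := ZMod p) wu wz' (fun i => (N + w'.F i : ℤ)) n := by
  have hz : ∀ i, Om.fn (m.ps (z i))
      ∈ Om.Fil (k := ZMod p) wu wz' (fun i => (N + w'.F i : ℤ)) (wz i) := fun i => by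
    rw [ps_z]
    split_ifs with h
    · simp
    · exact Om.z_mem_Sw (h1 i h).ge
  have hd : ∀ i, Om.d (Om.fn (m.ps (z i)))
      ∈ Om.Fil (k := ZMod p) wu wz' (fun i => (N + w'.F i : ℤ)) (N + w.F i) := fun i => by
    rw [ps_z]
    split_ifs with h
    · simp
    · rw [Om.d_z]; exact Om.dz_mem_Sw (by rw [m.hF i h])
  have h4 := Om.pb_sub_Fil (k := ZMod p) m.ph m.ps hz hd (fun i => ?_) (fun i => ?_) hω
  · refine ⟨h4, ?_⟩
    simpa using add_mem (Om.Fil_mono (by omega) h4) (Om.pb_Fil (k := ZMod p) m.ps hz hd hω)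
  · rcases m.ph_sub i with ⟨h, -⟩ | ⟨hk, f, hf, h⟩
    · rw [h]; simp
    · rw [h, h2 i hk]
      exact_mod_cast hf.fn_mem wu _ fun v => by exact_mod_cast h3 v
  · rcases m.ph_sub i with ⟨h, -⟩ | ⟨hk, f, hf, h⟩
    · rw [h]; simp
    · rw [h]
      exact_mod_cast hf.d_mem wu (fun v => by exact_mod_cast h3 v) fun v => by push_cast; rfl

end Mv

theorem moveG_holds : MoveG := by
  intro p _ Γ _ δ s s' _ _ _ _ w w' N La b m _ _ hle al hal ⟨ze, h, hd, hm, hl⟩
  obtain ⟨ε, hε, hld⟩ : ∃ ε : ℤ, ε * ε = 1 ∧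
      Om.pb m.ps (mu (w.ld b al)) = ε • mu (w'.ld b (m.e al)) := by
    have := Om.pb_mu_of_z (k := ZMod p) m.ps m.e (w.ld b al).1 (a := (w.ld b al).2.1)
      (S := (w.ld b al).2.2) (fun i hi => by
        rw [Mv.ps_z, if_neg]
        intro h
        exact hi.elim (fun h' => h' (w.noFar_ld b hal i h).1) (w.noFar_ld b hal i h).2)
      fun i hi j hj h => m.inj (fun h' => (w.noFar_ld b hal i h').2 hi)
        (fun h' => (w.noFar_ld b hal j h').2 hj) h
    rw [← m.tr_ld hal]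
    exact this
  have hal' := m.kd_e hal
  have hF := fun {n : ℤ} {ω : Om p (Au p) s} => m.sub_Fil 0 (wz := fun i => (N + w.F i : ℤ))
    (wz' := fun i => (N + w'.F i : ℤ)) (fun i hi => by rw [m.hF i hi]) (fun _ _ => rfl)
    (fun _ => le_rfl) (n := n) (ω := ω)
  have h3 : ∀ v, N + w'.F v ≤ w'.wz N La v := fun v => by
    unfold Wall.wz; split_ifs with h
    · exact hle v h
    · exact le_rfl
  have hW := fun {n : ℤ} {ω : Om p (Au p) s} => m.sub_Fil (2 * La : ℤ)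
    (wz := fun i => (w.wz N La i : ℤ)) (wz' := fun i => (w'.wz N La i : ℤ))
    (fun i hi => by rw [m.wz_e hi]) (fun i hi => by simp [Wall.wz, hi])
    (fun v => by exact_mod_cast h3 v) (n := n) (ω := ω)
  refine ⟨ε • Om.pb m.ph ze, ε • Om.pb m.ph h, by rw [map_zsmul, ← Om.pb_d, hd]; simp, ?_, ?_⟩
  · have h1 := m.pb_ps_in (fun x hx => m.hm_tr hx) hm
    rw [in_iff] at h1 hm ⊢
    have h2 := (hF (n := w.wF N (w.h0 b 0)) (Om.Su_mono (fun j a S _ hx => by
      simpa only [Wall.wF_eq] using w.le_of_hm N hx) hm)).1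
    have h4 := Om.Su_mono (Q := fun j a S => w'.Hm N b (j, a, S)) (fun j a S _ hx =>
      w'.hm_of_lt N (by
        rw [← m.tr_h0, m.wF_tr (w.noFar_h0 b 0), w'.wF_eq]; exact hx)) h2
    exact zsmul_mem (by simpa using add_mem h4 h1) _
  · set c : Au p := if b = true then -T (-1) else T (-1) with hc
    set n := w.wW N La (w.ld b al) with hn
    have hn' : w'.wW N La (w'.ld b (m.e al)) = n := by
      rw [← m.tr_ld hal, m.wW_tr (w.noFar_ld b hal)]
    have h1 := m.pb_ps_in (fun x hx => m.lt_tr hal hx) hl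
    rw [in_iff] at h1 hl ⊢
    have hup : ∀ {ω : Om p (Au p) s'}, ω ∈ Om.Fil (k := ZMod p) (2 * La : ℤ)
        (fun i => (w'.wz N La i : ℤ)) (fun i => (N + w'.F i : ℤ)) (n + 1) →
        ω ∈ Om.Su (k := ZMod p) fun j a S => w'.Lt N La b (m.e al) (j, a, S) := fun hω =>
      Om.Su_mono (fun j a S _ hx => w'.lt_of_lt N La hal' (by rw [hn', w'.wW_eq]; exact hx)) hω
    have hr := hW (n := n) (Om.Su_mono (fun j a S _ hx => by
      have h5 := w.le_of_lt N La hx
      rwa [← hn, w.wW_eq] at h5) hl)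
    have h0 := hW (n := n) (ω := mu (w.ld b al)) (Om.mu_mem_Sw (by rw [hn, w.wW_eq]))
    have hsm : ∀ {t : Type} [Fintype t] {f : O p (ZMod p) t}, f ∈ (mx : Ideal _) ^ 2 →
        c • bc (Au p) f ∈ (mx : Ideal (O p (Au p) t)) ^ 2 := fun hf => by
      rw [Algebra.smul_def]; exact Ideal.mul_mem_left _ _ (bc_mem_pow _ hf)
    have hE : w'.Eu b = E (c • bc (Au p) m.R) * m.ph (w.Eu b) := by
      rw [Wall.Eu, Wall.Eu, ← hc, E_map m.ph (fun i => by
        rw [Mv.ph, bcH_z]; exact bc_mem _ (m.io_mem i)) (hsm w.W2), map_smul, Mv.ph, bcH_bc,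
        ← E_add (hsm m.R2) (hsm (map_mx_pow m.io m.io_mem w.W2)), ← smul_add, ← map_add, m.eq,
        add_comm]
    have hR : Om.fn (c • bc (Au p) m.R) ∈ Om.Fil (k := ZMod p) (2 * La : ℤ)
        (fun i => (w'.wz N La i : ℤ)) (fun i => (N + w'.F i : ℤ)) 1 := by
      have h5 := Om.Sw_T (k := ZMod p) (B := (1 ≤ ·)) (-1) (fun x hx => by
        simp only [smul_eq_mul] at hx ⊢; push_cast at hx; omega)
        (m.hR.fn_mem (2 * La : ℤ) (fun i => (N + w'.F i : ℤ)) fun _ => le_rfl)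
      rw [Om.fn_smul, hc]
      split_ifs
      · rw [neg_smul]; exact neg_mem h5
      · exact h5
    have hX := (Om.E_Fil (k := ZMod p) (by norm_num) (hsm m.R2) hR).2.1
    set X := E (c • bc (Au p) m.R)
    set η := w.Eu b • (Om.d ze + h)
    have hη : Om.pb m.ph η ∈ Om.Fil (k := ZMod p) (2 * La : ℤ)
        (fun i => (w'.wz N La i : ℤ)) (fun i => (N + w'.F i : ℤ)) n := by
      simpa using add_mem hr.2 h0.2
    have key : w'.Eu b • (Om.d (ε • Om.pb m.ph ze) + ε • Om.pb m.ph h) - mu (w'.ld b (m.e al))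
        = ε • (Om.fn (X - 1) * Om.pb m.ph η
          + (Om.pb m.ph (η - mu (w.ld b al)) - Om.pb m.ps (η - mu (w.ld b al)))
          + Om.pb m.ps (η - mu (w.ld b al))
          + (Om.pb m.ph (mu (w.ld b al)) - Om.pb m.ps (mu (w.ld b al)))) := by
      have e1 : w'.Eu b • (Om.d (ε • Om.pb m.ph ze) + ε • Om.pb m.ph h)
          = ε • (X • Om.pb m.ph η) := by
        rw [hE, map_zsmul, ← smul_add, smul_comm, mul_smul, ← Om.pb_d, ← map_add, ← Om.pb_smul]
      have e2 : mu (w'.ld b (m.e al)) = ε • Om.pb m.ps (mu (w.ld b al)) := by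
        rw [hld, smul_smul, hε, one_smul]
      rw [e1, e2, ← smul_sub, Om.fn_mul, sub_smul, one_smul, map_sub (Om.pb m.ph)]
      congr 1
      abel
    rw [key]
    refine zsmul_mem (add_mem (add_mem (add_mem (hup ?_) (hup hr.1)) h1) (hup h0.1)) _
    exact Om.Fil_mono (by omega) (Om.Fil_mul hX hη)

end N255.Core
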