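import Crest.Agent.N255.Core.Wr
import Crest.Agent.N255.Core.Move
import Crest.Agent.N255.Ts.DichG

/-! Row 255, algebraic core: vertex identities with extra variables, `CoreG`. -/

set_option autoImplicit false

namespace N255.Core

open N255.Dr N255.Dr.O Finset

variable {p : ℕ} [hp : Fact p.Prime] {Γ : Type} [AddCommGroup Γ] {δ : Γ} {s : Fin 3 → Type}
  [∀ i, Fintype (s i)]

open Classical in
/-- the function weights of the main weight at a vertex -/
noncomputable def vw (w : ∀ i, Wall p Γ δ (s i)) (t : Fin 3 → Bool) (La : ℕ) {V : Type}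
    (em : (Σ i, s i) × Bool → V) (FV : V → ℕ) (v : V) : ℕ :=
  if ∃ i x, (w i).kd x = some (t i) ∧ v = em (⟨i, x⟩, false) then FV v else La

/-- A vertex identity with weights; variables outside `em '' Ok` are allowed. -/
structure VxE (w : ∀ i, Wall p Γ δ (s i)) (t : Fin 3 → Bool) (N La : ℕ) (V : Type)
    [Fintype V] where
  em : (Σ i, s i) × Bool → V
  inj : Set.InjOn em {q | Ok w t q}
  FV : V → ℕ
  hF : ∀ i x, Ok w t (⟨i, x⟩, false) → FV (em (⟨i, x⟩, false)) = N + (w i).F x
  hm : ∀ i x, Ok w t (⟨i, x⟩, true) → 0 < FV (em (⟨i, x⟩, true)) ∧ FV (em (⟨i, x⟩, true)) ≤ La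
  io : ∀ i, O p (ZMod p) (s i) →ₐ[ZMod p] O p (ZMod p) V
  hy : ∀ i x, (w i).kd x = none → io i (z x) = z (em (⟨i, x⟩, false))
  near : ∀ i x, (w i).kd x = some (t i) →
    Hi FV (N + (w i).F x) (io i (z x) - z (em (⟨i, x⟩, false)))
  far : ∀ i x, (w i).kd x = some (!t i) → Hi FV (N + (w i).F x) (io i (z x))
  rho : O p (ZMod p) (Xi w t) →ₐ[ZMod p] O p (ZMod p) V
  hrho : ∀ q : Xi w t, Hi FV (FV (em q.1)) (rho (z q) - z (em q.1))
  Q : O p (ZMod p) (Xi w t)
  hQ : Q ∈ (mx : Ideal (O p (ZMod p) (Xi w t))) ^ 2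
  c : ∀ i, s i → ZMod p
  hc : ∀ i x, t i = false → (w i).kd x = none → c i x ≠ 0
  Ps : O p (ZMod p) V
  Ps2 : Ps ∈ (mx : Ideal (O p (ZMod p) V)) ^ 2
  hPs : Ps ∈ Ge (vw w t La em FV) (3 * La)
  eq : ∑ i, (if t i = true then io i (w i).W else -io i (w i).W) +
    ∑ i, ∑ x, (if t i = false ∧ (w i).kd x = none then
      c i x • (z (em (⟨i, x⟩, false)) * z (em (⟨i, x⟩, true))) else 0) + Ps = rho Q

variable {w : ∀ i, Wall p Γ δ (s i)} {t : Fin 3 → Bool} {N La : ℕ} {V : Type}

theorem kill_Ge [Fintype V] (A : V → Prop) [Fintype {x // A x}] {FV : V → ℕ}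
    {FV' : {x // A x} → ℕ} (h : ∀ x, FV x.1 ≤ FV' x) {n : ℕ} {f : O p (ZMod p) V}
    (hf : f ∈ Ge FV n) : kill A f ∈ Ge FV' n :=
  Ge_map _ (fun v => by
    by_cases hv : A v
    · rw [kill_z hv]; exact Ge_anti (h ⟨v, hv⟩) (z_mem_Ge _)
    · rw [kill_z_not hv]; exact zero_mem _) hf

namespace VxE

variable [Fintype V] (v : VxE w t N La V)

/-- the trilinear coefficient -/
noncomputable def cub (al : ∀ i, s i) : ZMod p :=
  aug (pd (v.em (⟨0, al 0⟩, !t 0)) (pd (v.em (⟨1, al 1⟩, !t 1)) (pd (v.em (⟨2, al 2⟩, !t 2)) v.Ps)))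

/-- the variables that are not extra -/
def Us (x : V) : Prop := ∃ q, Ok w t q ∧ v.em q = x

open Classical in
/-- the indexing of the variables that are not extra -/
noncomputable def em' (x0 : {x // v.Us x}) (q : (Σ i, s i) × Bool) : {x // v.Us x} :=
  if h : Ok w t q then ⟨v.em q, q, h, rfl⟩ else x0

theorem em'_val (x0 : {x // v.Us x}) {q : (Σ i, s i) × Bool} (h : Ok w t q) :
    (v.em' x0 q).1 = v.em q := by
  rw [em', dif_pos h]

theorem kill_em (x0 : {x // v.Us x}) {q : (Σ i, s i) × Bool} (h : Ok w t q) :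
    kill v.Us (z (v.em q) : O p (ZMod p) V) = z (v.em' x0 q) := by
  rw [kill_z ⟨q, h, rfl⟩, em', dif_pos h]

/-- the vertex identity without extra variables -/
noncomputable def red [Fintype {x // v.Us x}] (x0 : {x // v.Us x}) :
    VxG w t N La {x // v.Us x} where
  em := v.em' x0
  inj := fun q hq q' hq' e => v.inj hq hq' (by
    rw [← v.em'_val x0 hq, ← v.em'_val x0 hq', e])
  onto := by
    rintro ⟨x, q, hq, rfl⟩
    exact ⟨q, hq, Subtype.ext (v.em'_val x0 hq)⟩
  FV x := v.FV x.1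
  hF i x h := by rw [v.em'_val x0 h, v.hF i x h]
  hm i x h := by rw [v.em'_val x0 h]; exact v.hm i x h
  io i := (kill v.Us).comp (v.io i)
  hy i x h := by rw [AlgHom.comp_apply, v.hy i x h, v.kill_em x0 (ok_y h)]
  near i x h := by
    have := kill_Ge v.Us (FV' := fun x => v.FV x.1) (fun _ => le_rfl) (v.near i x h)
    rwa [map_sub, v.kill_em x0 (ok_near h)] at this
  far i x h := kill_Ge v.Us (FV' := fun x => v.FV x.1) (fun _ => le_rfl) (v.far i x h)
  rho := (kill v.Us).comp v.rho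
  hrho q := by
    have := kill_Ge v.Us (FV' := fun x => v.FV x.1) (fun _ => le_rfl) (v.hrho q)
    rw [map_sub, v.kill_em x0 (ok_xi q)] at this
    rw [v.em'_val x0 (ok_xi q)]
    exact this
  Q := v.Q
  hQ := v.hQ
  c := v.c
  hc := v.hc
  Ps := kill v.Us v.Ps
  Ps2 := map_mx_pow _ (kill_z_mem _) v.Ps2
  hPs := by
    refine kill_Ge v.Us (FV' := vw w t La (v.em' x0) fun x => v.FV x.1) (fun x => ?_) v.hPs
    have e : (∃ i y, (w i).kd y = some (t i) ∧ x.1 = v.em (⟨i, y⟩, false)) ↔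
        ∃ i y, (w i).kd y = some (t i) ∧ x = v.em' x0 (⟨i, y⟩, false) :=
      exists_congr fun i => exists_congr fun y => and_congr_right fun hy => by
        rw [Subtype.ext_iff, v.em'_val x0 (ok_near hy)]
    unfold vw
    by_cases h : ∃ i y, (w i).kd y = some (t i) ∧ x.1 = v.em (⟨i, y⟩, false)
    · rw [if_pos h, if_pos (e.1 h)]
    · rw [if_neg h, if_neg fun h' => h (e.2 h')]
  eq := by
    have h := congrArg (kill v.Us) v.eq
    rw [map_add, map_add, map_sum, map_sum] at h
    rw [AlgHom.comp_apply, ← h]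
    congr 2
    · refine Finset.sum_congr rfl fun i _ => ?_
      split_ifs <;> simp
    · refine Finset.sum_congr rfl fun i _ => ?_
      rw [map_sum]
      refine Finset.sum_congr rfl fun x _ => ?_
      split_ifs with hx
      · rw [map_smul, map_mul, v.kill_em x0 (ok_y hx.2), v.kill_em x0 (ok_m hx.1 hx.2)]
      · simp

theorem red_cub [Fintype {x // v.Us x}] (x0 : {x // v.Us x}) {al : ∀ i, s i}
    (h : ∀ i, (w i).kd (al i) = none) : (v.red x0).cub al = v.cub al := by
  simp only [VxG.cub, cub, red]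
  rw [pd_kill, pd_kill, pd_kill, aug_kill, v.em'_val x0 (ok_dir (h 0)),
    v.em'_val x0 (ok_dir (h 1)), v.em'_val x0 (ok_dir (h 2))]

/-- the vertex theorem with extra variables -/
theorem vertex (hV : VertexG) [∀ i, DecidableEq (s i)] {al : ∀ i, s i}
    (hal : ∀ i, (w i).kd (al i) = none) (hG : ∀ i, (w i).Gd N La (t i) (al i))
    (hT : ∀ i, (w i).Test N La (t i) (al i)) : v.cub al = 0 := by
  classical
  let x0 : {x // v.Us x} := ⟨_, _, ok_y (hal 0), rfl⟩
  rw [← v.red_cub x0 hal]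
  exact hV p Γ δ s w t N La _ (v.red x0) al hal hG hT

end VxE

open Classical in
/-- the weights on the variables of a vertex identity with linear hypotheses -/
noncomputable def Vx.fv (v : Vx w t V) (N : ℕ) (x : V) : ℕ :=
  if h : ∃ q, Ok w t q ∧ v.em q = x then N + v.FV h.choose else 2 * N

theorem Vx.fv_em (v : Vx w t V) (N : ℕ) {q : (Σ i, s i) × Bool} (h : Ok w t q) :
    v.fv N (v.em q) = N + v.FV q := by
  have h' : ∃ q', Ok w t q' ∧ v.em q' = v.em q := ⟨q, h, rfl⟩
  rw [Vx.fv, dif_pos h', v.inj h'.choose_spec.1 h h'.choose_spec.2]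

theorem Vx.hi [Fintype V] (v : Vx w t V) {n : ℕ} (hn : n < N) {f : O p (ZMod p) V}
    (h : Up w t v.em v.FV n f) : Hi (v.fv N) (N + n) f := by
  refine hi_of_lin (N := N) (fun x => ?_) (by omega) h.1 fun x hx => ?_
  · unfold Vx.fv
    split_ifs <;> omega
  · by_cases h' : ∃ q, Ok w t q ∧ v.em q = x
    · obtain ⟨q, hq, rfl⟩ := h'
      rw [v.fv_em N hq] at hx
      exact h.2 q hq (by omega)
    · rw [Vx.fv, dif_neg h'] at hx
      omega

/-- a vertex identity with linear hypotheses is one with weights -/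
noncomputable def Vx.toE [Fintype V] (v : Vx w t V) (N La : ℕ) (hF : ∀ i x, (w i).F x < N)
    (hV : ∀ q, Ok w t q → v.FV q < N) (hL : 2 * N ≤ La) : VxE w t N La V where
  em := v.em
  inj := v.inj
  FV := v.fv N
  hF i x h := by rw [v.fv_em N h, v.hF]
  hm i x h := by
    have := hV _ h
    rw [v.fv_em N h]
    omega
  io := v.io
  hy := v.hy
  near i x h := v.hi (hF i x) (v.near i x h)
  far i x h := v.hi (hF i x) (v.far i x h)
  rho := v.rho
  hrho q := by rw [v.fv_em N (ok_xi q)]; exact v.hi (hV _ (ok_xi q)) (v.hrho q)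
  Q := v.Q
  hQ := v.hQ
  c := v.c
  hc := v.hc
  Ps := v.Ps
  Ps2 := by
    refine Ideal.pow_le_pow_right (n := 3) (by norm_num) (Ideal.pow_right_mono ?_ 3 v.hPs)
    rw [Ideal.span_le]
    rintro _ ⟨x, rfl, -⟩
    exact z_mem x
  hPs := by
    refine Ge_pow 3 (Ideal.pow_right_mono ?_ 3 v.hPs)
    rw [Ideal.span_le]
    rintro _ ⟨x, rfl, hx⟩
    have := z_mem_Ge (p := p) (FV := vw w t La v.em (v.fv N)) x
    rwa [vw, if_neg fun ⟨i, y, hy, e⟩ => hx i y hy e] at this
  eq := v.eq

/-- the vertex theorem for linear hypotheses and the arithmetic condition `Gd` -/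
theorem Vx.vertex (hV : VertexG) [∀ i, DecidableEq (s i)] [Finite V] (v : Vx w t V)
    (hF : ∀ i x, (w i).F x < N) (hF' : ∀ q, Ok w t q → v.FV q < N) (hL : 2 * N ≤ La)
    {al : ∀ i, s i} (hal : ∀ i, (w i).kd (al i) = none) (hG : ∀ i, (w i).Gd N La (t i) (al i))
    (hT : ∀ i, (w i).Test N La (t i) (al i)) : v.cub al = 0 := by
  have := Fintype.ofFinite V
  exact (v.toE N La hF hF' hL).vertex hV hal hG hT

theorem vertexS_of (hV : VertexG) : VertexS := by
  intro p hp Γ _ δ s _ _ w t V _ _ v _ N La hA hF al hal hT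
  refine v.vertex hV (fun i => (hA i).1) hF ?_ hal (fun i => (hA i).gd _ (hal i)) hT
  have h1 := (hA 0).2
  have h2 := hp.out.one_le
  have h3 : 2 * N * 1 * 1 ≤ 2 * N * p * (Fintype.card (s 0) + 1) :=
    Nat.mul_le_mul (Nat.mul_le_mul_left _ h2) (by omega)
  omega

theorem dichS_of (hD : DichG) : DichS := by
  intro p hp Γ _ δ s _ _ w N La hA al hal
  exact hD p Γ δ s w N La ((Nat.zero_le _).trans_lt (hA.sum_lt ∅ (al := al))) al hal

theorem strong_orG (hD : DichG) (hp2 : p ≠ 2) {s : Type} [Fintype s] [DecidableEq s]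
    (w : Wall p Γ δ s) (N : ℕ) {La : ℕ} (hL : 0 < La) {D : ZMod p → s}
    (h : ∀ d, w.kd (D d) = none) : w.Strong N La true D ∨ w.Strong N La false D := by
  classical
  have hp0 : NeZero p := ⟨hp.out.ne_zero⟩
  unfold Wall.Strong
  rw [Nat.subtype_card (Finset.univ.filter fun d => w.Test N La true (D d)) (by simp),
    Nat.subtype_card (Finset.univ.filter fun d => w.Test N La false (D d)) (by simp)]
  have h1 : (Finset.univ : Finset (ZMod p)) ⊆
      (Finset.univ.filter fun d => w.Test N La true (D d)) ∪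
        Finset.univ.filter fun d => w.Test N La false (D d) := fun d _ => by
    simpa using hD p Γ δ s w N La hL (D d) (h d)
  have h2 := (Finset.card_le_card h1).trans (Finset.card_union_le _ _)
  rw [Finset.card_univ, ZMod.card] at h2
  obtain ⟨k, hk⟩ := hp.out.odd_of_ne_two hp2
  omega

/-- strongness is inherited along any implication between tests -/
theorem Wall.Strong.imp {s s' : Type} [Fintype s] [DecidableEq s] [Fintype s'] [DecidableEq s']
    {w : Wall p Γ δ s} {w' : Wall p Γ δ s'} {N La N' La' : ℕ} {b b' : Bool} {D : ZMod p → s}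
    {D' : ZMod p → s'} (h : w.Strong N La b D)
    (hi : ∀ d, w.Test N La b (D d) → w'.Test N' La' b' (D' d)) : w'.Strong N' La' b' D' := by
  have hp0 : NeZero p := ⟨hp.out.ne_zero⟩
  refine lt_of_lt_of_le h (Nat.mul_le_mul_left _ (Nat.card_le_card_of_injective
    (fun d => (⟨d.1, hi d.1 d.2⟩ : {d : ZMod p // w'.Test N' La' b' (D' d)})) ?_))
  intro d d' e
  exact Subtype.ext (by simpa using e)

/-- three strong sides give tests in directions of total degree `m0` -/
theorem exists_dirs [∀ i, DecidableEq (s i)] {D : ∀ i, ZMod p → s i} (m0 : ZMod p)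
    (hS : ∀ i, (w i).Strong N La (t i) (D i)) : ∃ d : Fin 3 → ZMod p,
    ∑ i, (if t i = true then d i else m0 - d i) = m0 ∧ ∀ i, (w i).Test N La (t i) (D i (d i)) := by
  classical
  have hp0 : NeZero p := ⟨hp.out.ne_zero⟩
  let f : Fin 3 → ZMod p → ZMod p := fun i d => if t i = true then d else m0 - d
  have hf : ∀ i, Function.Injective (f i) := fun i => by
    simp only [f]
    split_ifs
    · exact Function.injective_id
    · exact sub_right_injective
  obtain ⟨e, he, hs⟩ := pigeon3 (fun i =>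
    (Finset.univ.filter fun d => (w i).Test N La (t i) (D i d)).map ⟨f i, hf i⟩) (fun i => by
      have := hS i
      rw [Wall.Strong, Nat.subtype_card
        (Finset.univ.filter fun d => (w i).Test N La (t i) (D i d)) (by simp)] at this
      rwa [Finset.card_map]) m0
  choose d hd hde using fun i => Finset.mem_map.1 (he i)
  exact ⟨d, (Finset.sum_congr rfl fun i _ => hde i).trans hs, fun i => by simpa using hd i⟩

/-- three strong sides cannot point to one vertex -/
theorem no_threeE (hV : VertexG) [∀ i, DecidableEq (s i)] [Fintype V] (v : VxE w t N La V)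
    {D : ∀ i, ZMod p → s i} (hD : ∀ i d, (w i).kd (D i d) = none)
    (hG : ∀ i d, (w i).Gd N La (t i) (D i d)) {m0 : ZMod p}
    (hc : ∀ d : Fin 3 → ZMod p, ∑ i, (if t i = true then d i else m0 - d i) = m0 →
      v.cub (fun i => D i (d i)) ≠ 0)
    (hS : ∀ i, (w i).Strong N La (t i) (D i)) : False := by
  obtain ⟨d, h1, h2⟩ := exists_dirs m0 hS
  exact hc d h1 (v.vertex hV (fun i => hD i _) (fun i => hG i _) h2)

/-- THE ALGEBRAIC CORE, multi-scale form: three walls `w`; for each pattern `t` moves to walls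
`w'` (bounded far part) which satisfy a vertex identity. -/
def CoreG : Prop :=
  ∀ (p : ℕ) [Fact p.Prime], p ≠ 2 → ∀ (Γ : Type) [AddCommGroup Γ] (δ : Γ) (s : Fin 3 → Type)
    [∀ i, Fintype (s i)] (w : ∀ i, Wall p Γ δ (s i)) (N La : ℕ) (D : ∀ i, ZMod p → s i),
    (∀ i d, (w i).kd (D i d) = none) → (∀ i x, 0 < N + (w i).F x) → ∀ m0 : ZMod p,
    (∀ t : Fin 3 → Bool, ∃ (s' : Fin 3 → Type) (_ : ∀ i, Fintype (s' i))
      (_ : ∀ i, DecidableEq (s' i)) (w' : ∀ i, Wall p Γ δ (s' i))
      (m : ∀ i, Mv (w i) (w' i) N La (t i)) (N' : ℕ) (F' : ∀ i, s' i → ℕ),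
      (∀ i x, 0 < N + (w' i).F x) ∧ (∀ i x, (w' i).kd x = none → N + (w' i).F x ≤ La) ∧
      (∀ i, ∀ x ∈ (w' i).nr (t i), N' + F' i x ≤ N + (w' i).F x) ∧
      (∀ i x, x ∉ (w' i).nr (t i) → N + (w' i).F x ≤ N' + F' i x) ∧
      (∀ i al, (w' i).kd al = none → ((w' i).reF (F' i)).Gd N' La (t i) al) ∧
      ∃ (V : Type) (_ : Fintype V) (v : VxE (fun i => (w' i).reF (F' i)) t N' La V),
        ∀ d : Fin 3 → ZMod p, ∑ i, (if t i = true then d i else m0 - d i) = m0 →
          v.cub (fun i => (m i).e (D i (d i))) ≠ 0) → False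

theorem coreG_of (hD : DichG) (hM : MoveG) (hV : VertexG) : CoreG := by
  intro p hp hp2 Γ _ δ s _ w N La D hDk hpos m0 h
  classical
  have hL : 0 < La := by
    obtain ⟨s', _, _, w', m, N', F', h1, h2, -⟩ := h fun _ => true
    exact (h1 0 _).trans_le (h2 0 ((m 0).e (D 0 0)) (by
      rw [(m 0).kd _ (by simp [hDk]), hDk]))
  have hs : ∀ i, ∃ b, (w i).Strong N La b (D i) := fun i =>
    (strong_orG hD hp2 (w i) N hL (hDk i)).elim (fun h => ⟨_, h⟩) fun h => ⟨_, h⟩
  choose t ht using hs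
  obtain ⟨s', _, _, w', m, N', F', h1, h2, h3, h4, h5, V, _, v, hv⟩ := h t
  have hk : ∀ i d, (w' i).kd ((m i).e (D i d)) = none := fun i d => by
    rw [(m i).kd _ (by simp [hDk]), hDk]
  refine no_threeE hV v (D := fun i d => (m i).e (D i d)) hk (fun i d => h5 i _ (hk i d)) hv
    fun i => (ht i).imp fun d hd => ?_
  exact (hM p Γ δ _ _ (w i) (w' i) N La (t i) (m i) (hpos i) (h1 i) (h2 i) _ (hDk i d) hd).reF
    (hk i d) N' (F' i) (h3 i) (h4 i)

theorem coreG_of_vertex (hV : VertexG) : CoreG := coreG_of N255.Ts.dichG_holds moveG_holds hV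

theorem coreS_of_vertex (hV : VertexG) : CoreS :=
  coreS_of (dichS_of N255.Ts.dichG_holds) (vertexS_of hV)

end N255.Core
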