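import Crest.Agent.N255.Dr.O

/-! Row 255, algebraic core: walls, vertex identities and the final statement `CoreS`
(only truncated polynomial algebras occur here). -/

set_option autoImplicit false

namespace N255.Core

open N255.Dr N255.Dr.O

instance factZ (p : ℕ) : Fact ((p : ZMod p) = 0) := ⟨ZMod.natCast_self p⟩

/-- A wall: variables `s` of kind `some true` (near for the `M` side), `some false` (near for the
`L` side) or `none` (boundary variables `y`); a depth `F`, a grading `deg` and a potential `W`. -/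
structure Wall (p : ℕ) (Γ : Type) [AddCommGroup Γ] (δ : Γ) (s : Type) [Fintype s] where
  kd : s → Option Bool
  F : s → ℕ
  deg : s → Γ
  W : O p (ZMod p) s
  W2 : W ∈ (mx : Ideal (O p (ZMod p) s)) ^ 2
  hom : ∀ a : s → ℕ, cf a W ≠ 0 → ∑ i, a i • deg i = δ
  inj : ∀ i j, kd i = none → kd j = none → deg i = deg j → i = j

variable {p : ℕ} [Fact p.Prime] {Γ : Type} [AddCommGroup Γ] {δ : Γ} {s : Fin 3 → Type}
  [∀ i, Fintype (s i)]

/-- the linear coefficient -/
noncomputable def lin {V : Type} (v : V) (f : O p (ZMod p) V) : ZMod p := aug (pd v f)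

/-- the indices of the variables at a vertex: `(⟨i, x⟩, false)` is the copy of a near variable or
of a `y` of slot `i`, `(⟨i, x⟩, true)` is the variable `m` dual to `y = x` of an `L` slot. -/
def Ok (w : ∀ i, Wall p Γ δ (s i)) (t : Fin 3 → Bool) (q : (Σ i, s i) × Bool) : Prop :=
  (q.2 = false ∧ (w q.1.1).kd q.1.2 ≠ some (!t q.1.1)) ∨
    (q.2 = true ∧ t q.1.1 = false ∧ (w q.1.1).kd q.1.2 = none)

/-- the Gaussian variables: the copies of `y` and the variables `m` of the `L` slots -/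
abbrev Xi (w : ∀ i, Wall p Γ δ (s i)) (t : Fin 3 → Bool) : Type :=
  {q : (Σ i, s i) × Bool // t q.1.1 = false ∧ (w q.1.1).kd q.1.2 = none}

/-- `f` has no constant term and its linear part only contains variables of depth `> n` -/
def Up {V : Type} (w : ∀ i, Wall p Γ δ (s i)) (t : Fin 3 → Bool) (em : (Σ i, s i) × Bool → V)
    (FV : (Σ i, s i) × Bool → ℕ) (n : ℕ) (f : O p (ZMod p) V) : Prop :=
  f ∈ (mx : Ideal (O p (ZMod p) V)) ∧ ∀ q, Ok w t q → FV q ≤ n → lin (em q) f = 0

/-- A vertex identity for the pattern `t` (`t i = true`: slot `i` is read from the `M` side).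
Variables of `V` outside `em '' Ok` are allowed (they are put equal to zero). -/
structure Vx (w : ∀ i, Wall p Γ δ (s i)) (t : Fin 3 → Bool) (V : Type) where
  em : (Σ i, s i) × Bool → V
  inj : Set.InjOn em {q | Ok w t q}
  FV : (Σ i, s i) × Bool → ℕ
  hF : ∀ i x, FV (⟨i, x⟩, false) = (w i).F x
  io : ∀ i, O p (ZMod p) (s i) →ₐ[ZMod p] O p (ZMod p) V
  hy : ∀ i x, (w i).kd x = none → io i (z x) = z (em (⟨i, x⟩, false))
  near : ∀ i x, (w i).kd x = some (t i) →
    Up w t em FV ((w i).F x) (io i (z x) - z (em (⟨i, x⟩, false)))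
  far : ∀ i x, (w i).kd x = some (!t i) → Up w t em FV ((w i).F x) (io i (z x))
  rho : O p (ZMod p) (Xi w t) →ₐ[ZMod p] O p (ZMod p) V
  hrho : ∀ q : Xi w t, Up w t em FV (FV q.1) (rho (z q) - z (em q.1))
  Q : O p (ZMod p) (Xi w t)
  hQ : Q ∈ (mx : Ideal (O p (ZMod p) (Xi w t))) ^ 2
  c : ∀ i, s i → ZMod p
  hc : ∀ i x, t i = false → (w i).kd x = none → c i x ≠ 0
  Ps : O p (ZMod p) V
  hPs : Ps ∈ Ideal.span {f : O p (ZMod p) V | ∃ v, f = z v ∧
    ∀ i x, (w i).kd x = some (t i) → v ≠ em (⟨i, x⟩, false)} ^ 3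
  eq : ∑ i, (if t i = true then io i (w i).W else -io i (w i).W) +
    ∑ i, ∑ x, (if t i = false ∧ (w i).kd x = none then
      c i x • (z (em (⟨i, x⟩, false)) * z (em (⟨i, x⟩, true))) else 0) + Ps = rho Q

/-- the trilinear coefficient in the directions `al` (`y` for `M` slots, `m` for `L` slots) -/
noncomputable def Vx.cub {w : ∀ i, Wall p Γ δ (s i)} {t : Fin 3 → Bool} {V : Type}
    (v : Vx w t V) (al : ∀ i, s i) : ZMod p :=
  aug (pd (v.em (⟨0, al 0⟩, !t 0)) (pd (v.em (⟨1, al 1⟩, !t 1)) (pd (v.em (⟨2, al 2⟩, !t 2)) v.Ps)))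

/-- the trilinear coefficient does not vanish on the directions `D` of total degree `m0` -/
def Vx.Cub {w : ∀ i, Wall p Γ δ (s i)} {t : Fin 3 → Bool} {V : Type}
    (v : Vx w t V) (D : ∀ i, ZMod p → s i) (m0 : ZMod p) : Prop :=
  ∀ d : Fin 3 → ZMod p, ∑ i, (if t i = true then d i else m0 - d i) = m0 →
    v.cub (fun i => D i (d i)) ≠ 0

/-- THE ALGEBRAIC CORE: three walls cannot have vertex identities for all eight patterns. -/
def CoreS : Prop :=
  ∀ (p : ℕ) [Fact p.Prime], p ≠ 2 → ∀ (Γ : Type) [AddCommGroup Γ] (δ : Γ) (s : Fin 3 → Type)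
    [∀ i, Fintype (s i)] (w : ∀ i, Wall p Γ δ (s i)) (D : ∀ i, ZMod p → s i),
    (∀ i d, (w i).kd (D i d) = none) → ∀ m0 : ZMod p,
    (∀ t : Fin 3 → Bool, ∃ (V : Type) (_ : Finite V) (v : Vx w t V), v.Cub D m0) → False

end N255.Core
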