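import Crest.Agent.N255.Core.GenH

/-! Row 255 (helper76): `VxH` with a defect `De` of the Gaussian term; `VxD`, `VertexD`, `CoreD`. -/

set_option autoImplicit false

namespace N255.Core

open N255.Dr N255.Dr.O Finset

variable {p : ℕ} [hp : Fact p.Prime] {Γ : Type} [AddCommGroup Γ] {δ : Γ}
  {s : Fin 3 → Type} [∀ i, Fintype (s i)]

open Classical in
/-- the indicator of the copies of the variables `y` of the `L` slots -/
noncomputable def yL (w : ∀ i, Wall p Γ δ (s i)) (t : Fin 3 → Bool) {V : Type}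
    (em : (Σ i, s i) × Bool → V) (v : V) : ℕ :=
  if ∃ i x, t i = false ∧ (w i).kd x = none ∧ v = em (⟨i, x⟩, false) then 1 else 0

theorem yi_le_yL {w : ∀ i, Wall p Γ δ (s i)} {t : Fin 3 → Bool} {V : Type}
    (em : (Σ i, s i) × Bool → V) {i : Fin 3} (h : t i = false) (v : V) :
    yi w em i v ≤ yL w t em v := by
  unfold yi yL
  split_ifs with h1 h2
  · rfl
  · obtain ⟨x, h3, h4⟩ := h1
    exact absurd ⟨i, x, h, h3, h4⟩ h2
  all_goals simp

/-- A vertex identity with pure weights `FV` and one weight `om i ≤ FV` per slot.  Outside the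
small set `Bad` foreign variables are cheap for `om i`.  Extra variables are allowed. -/
structure VxD (w : ∀ i, Wall p Γ δ (s i)) (t : Fin 3 → Bool) (N La : ℕ) (V : Type)
    [Fintype V] where
  em : (Σ i, s i) × Bool → V
  inj : Set.InjOn em {q | Ok w t q}
  FV : V → ℕ
  hF : ∀ i x, Ok w t (⟨i, x⟩, false) → FV (em (⟨i, x⟩, false)) = N + (w i).F x
  hm : ∀ i x, Ok w t (⟨i, x⟩, true) → 0 < FV (em (⟨i, x⟩, true)) ∧ FV (em (⟨i, x⟩, true)) ≤ La
  om : Fin 3 → V → ℕ
  om_le : ∀ i v, om i v ≤ FV v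
  om_em : ∀ i x, Ok w t (⟨i, x⟩, false) → om i (em (⟨i, x⟩, false)) = N + (w i).F x
  Bad : Finset V
  cheap : ∀ i q, Ok w t q → q.1.1 ≠ i → em q ∉ Bad → 3 * om i (em q) ≤ FV (em q)
  bad : ∀ q : Xi w t, em q.1 ∈ Bad
  small : 4 * (p * ∑ v ∈ Bad, FV v) < La
  io : ∀ i, O p (ZMod p) (s i) →ₐ[ZMod p] O p (ZMod p) V
  near : ∀ i x, (w i).kd x ≠ some (!t i) →
    Hi (om i) (N + (w i).F x) (io i (z x) - z (em (⟨i, x⟩, false)))
  far : ∀ i x, (w i).kd x = some (!t i) → Hi (om i) (N + (w i).F x) (io i (z x))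
  hy : ∀ i x, (w i).kd x = none →
    Hi (vw w t La em FV) La (io i (z x) - z (em (⟨i, x⟩, false)))
  hyL : ∀ i x, t i = false → (w i).kd x = none →
    io i (z x) - z (em (⟨i, x⟩, false)) ∈ Ge (yi w em i) 1
  rho : O p (ZMod p) (Xi w t) →ₐ[ZMod p] O p (ZMod p) V
  hrho : ∀ q : Xi w t, Hi FV (FV (em q.1)) (rho (z q) - z (em q.1))
  Q : O p (ZMod p) (Xi w t)
  hQ : Q ∈ (mx : Ideal (O p (ZMod p) (Xi w t))) ^ 2
  c : ∀ i, s i → ZMod p
  hc : ∀ i x, t i = false → (w i).kd x = none → c i x ≠ 0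
  Ps : O p (ZMod p) V
  Ps2 : Ps ∈ (mx : Ideal (O p (ZMod p) V)) ^ 2
  hPs : Ps ∈ Ge (vw w t La em FV) (3 * La)
  De : O p (ZMod p) V
  De2 : De ∈ (mx : Ideal (O p (ZMod p) V)) ^ 2
  hDe : Hi (vw w t La em FV) (2 * La) De
  hDeL : De ∈ Ge (yL w t em) 1
  eq : ∑ i, (if t i = true then io i (w i).W else -io i (w i).W) +
    ∑ i, ∑ x, (if t i = false ∧ (w i).kd x = none then
      c i x • (z (em (⟨i, x⟩, false)) * z (em (⟨i, x⟩, true))) else 0) + De + Ps = rho Q

/-- the trilinear coefficient -/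
noncomputable def VxD.cub {w : ∀ i, Wall p Γ δ (s i)} {t : Fin 3 → Bool} {N La : ℕ} {V : Type}
    [Fintype V] (v : VxD w t N La V) (al : ∀ i, s i) : ZMod p :=
  aug (pd (v.em (⟨0, al 0⟩, !t 0)) (pd (v.em (⟨1, al 1⟩, !t 1)) (pd (v.em (⟨2, al 2⟩, !t 2)) v.Ps)))

/-- the vertex theorem with one weight per slot -/
def VertexD : Prop :=
  ∀ (p : ℕ) [Fact p.Prime] (Γ : Type) [AddCommGroup Γ] (δ : Γ) (s : Fin 3 → Type)
    [∀ i, Fintype (s i)] [∀ i, DecidableEq (s i)] (w : ∀ i, Wall p Γ δ (s i)) (t : Fin 3 → Bool)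
    (N La : ℕ) (V : Type) [Fintype V] (v : VxD w t N La V) (al : ∀ i, s i),
    (∀ i, (w i).kd (al i) = none) → (∀ i, (w i).Gh N La (t i) (al i)) →
    (∀ i, (w i).Test N La (t i) (al i)) → v.cub al = 0

/-- THE ALGEBRAIC CORE without moves: three walls with even weights cannot have vertex identities
`VxD` for all eight patterns. -/
def CoreD : Prop :=
  ∀ (p : ℕ) [Fact p.Prime], p ≠ 2 → ∀ (Γ : Type) [AddCommGroup Γ] (δ : Γ) (s : Fin 3 → Type)
    [∀ i, Fintype (s i)] (w : ∀ i, Wall p Γ δ (s i)) (N La : ℕ) (D : ∀ i, ZMod p → s i),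
    (∀ i d, (w i).kd (D i d) = none) → (∀ i x, 0 < N + (w i).F x) →
    (∀ i x, (w i).kd x = none → N + (w i).F x ≤ La) → Odd La → (∀ i x, Even (N + (w i).F x)) →
    ∀ m0 : ZMod p, (∀ t : Fin 3 → Bool, ∃ (V : Type) (_ : Fintype V) (v : VxD w t N La V),
        ∀ d : Fin 3 → ZMod p, ∑ i, (if t i = true then d i else m0 - d i) = m0 →
          v.cub (fun i => D i (d i)) ≠ 0) → False

/-- three strong sides cannot point to one vertex -/
theorem no_threeD (hV : VertexD) [∀ i, DecidableEq (s i)] {w : ∀ i, Wall p Γ δ (s i)}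
    {t : Fin 3 → Bool} {N La : ℕ} {V : Type} [Fintype V] (v : VxD w t N La V)
    {D : ∀ i, ZMod p → s i} (hD : ∀ i d, (w i).kd (D i d) = none)
    (hG : ∀ i d, (w i).Gh N La (t i) (D i d)) {m0 : ZMod p}
    (hc : ∀ d : Fin 3 → ZMod p, ∑ i, (if t i = true then d i else m0 - d i) = m0 →
      v.cub (fun i => D i (d i)) ≠ 0)
    (hS : ∀ i, (w i).Strong N La (t i) (D i)) : False := by
  obtain ⟨d, h1, h2⟩ := exists_dirs m0 hS
  exact hc d h1 (hV p Γ δ s w t N La V v _ (fun i => hD i _) (fun i => hG i _) h2)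

theorem coreD_of (hV : VertexD) : CoreD := by
  intro p hp hp2 Γ _ δ s _ w N La D hDk hpos hle hO hE m0 h
  classical
  have hs : ∀ i, ∃ b, (w i).Strong N La b (D i) := fun i =>
    (strong_orG N255.Ts.dichG_holds hp2 (w i) N hO.pos (hDk i)).elim (fun h => ⟨_, h⟩)
      fun h => ⟨_, h⟩
  choose t ht using hs
  obtain ⟨V, _, v, hv⟩ := h t
  exact no_threeD hV v hDk (fun i d => (w i).gh_of N La (hDk i d) (hpos i) (hle i)
    (Or.inr ⟨hO, hE i⟩)) hv ht

variable {w : ∀ i, Wall p Γ δ (s i)} {t : Fin 3 → Bool} {N La : ℕ} {V : Type} [Fintype V]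

/-- no defect -/
noncomputable def VxH.toD (v : VxH w t N La V) : VxD w t N La V where
  em := v.em
  inj := v.inj
  FV := v.FV
  hF := v.hF
  hm := v.hm
  om := v.om
  om_le := v.om_le
  om_em := v.om_em
  Bad := v.Bad
  cheap := v.cheap
  bad := v.bad
  small := v.small
  io := v.io
  near := v.near
  far := v.far
  hy := v.hy
  hyL := v.hyL
  rho := v.rho
  hrho := v.hrho
  Q := v.Q
  hQ := v.hQ
  c := v.c
  hc := v.hc
  Ps := v.Ps
  Ps2 := v.Ps2
  hPs := v.hPs
  De := 0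
  De2 := zero_mem _
  hDe := hi_iff.2 (zero_mem _)
  hDeL := zero_mem _
  eq := by rw [add_zero]; exact v.eq

theorem vertexH_of (h : VertexD) : VertexH := fun p _ Γ _ δ s _ _ w t N La V _ v al =>
  h p Γ δ s w t N La V v.toD al

namespace VxD

variable (v : VxD w t N La V)

/-- the variables that are not extra -/
def Us (x : V) : Prop := ∃ q, Ok w t q ∧ v.em q = x

open Classical in
/-- the indexing of the variables that are not extra -/
noncomputable def em' (x0 : {x // v.Us x}) (q : (Σ i, s i) × Bool) : {x // v.Us x} :=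
  if h : Ok w t q then ⟨v.em q, q, h, rfl⟩ else x0

theorem em'_val (x0 : {x // v.Us x}) {q : (Σ i, s i) × Bool} (h : Ok w t q) :
    (v.em' x0 q).1 = v.em q := by
  rw [em', dif_pos h]

theorem kill_em (x0 : {x // v.Us x}) {q : (Σ i, s i) × Bool} (h : Ok w t q) :
    kill v.Us (z (v.em q) : O p (ZMod p) V) = z (v.em' x0 q) := by
  rw [kill_z ⟨q, h, rfl⟩, em', dif_pos h]

theorem vw_le (x0 x : {x // v.Us x}) :
    vw w t La v.em v.FV x.1 ≤ vw w t La (v.em' x0) (fun x => v.FV x.1) x := by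
  have e : (∃ i y, (w i).kd y = some (t i) ∧ x.1 = v.em (⟨i, y⟩, false)) ↔
      ∃ i y, (w i).kd y = some (t i) ∧ x = v.em' x0 (⟨i, y⟩, false) :=
    exists_congr fun i => exists_congr fun y => and_congr_right fun hy => by
      rw [Subtype.ext_iff, v.em'_val x0 (ok_near hy)]
  unfold vw
  by_cases h : ∃ i y, (w i).kd y = some (t i) ∧ x.1 = v.em (⟨i, y⟩, false)
  · rw [if_pos h, if_pos (e.1 h)]
  · rw [if_neg h, if_neg fun h' => h (e.2 h')]

theorem yi_le (x0 : {x // v.Us x}) (i : Fin 3) (x : {x // v.Us x}) :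
    yi w v.em i x.1 ≤ yi w (v.em' x0) i x := by
  unfold yi
  split_ifs with h1 h2
  · rfl
  · obtain ⟨y, h3, h4⟩ := h1
    exact absurd ⟨y, h3, Subtype.ext (h4.trans (v.em'_val x0 (ok_y h3)).symm)⟩ h2
  all_goals simp

theorem yL_le (x0 x : {x // v.Us x}) : yL w t v.em x.1 ≤ yL w t (v.em' x0) x := by
  unfold yL
  split_ifs with h1 h2
  · rfl
  · obtain ⟨i, y, h, h3, h4⟩ := h1
    exact absurd ⟨i, y, h, h3, Subtype.ext (h4.trans (v.em'_val x0 (ok_y h3)).symm)⟩ h2
  all_goals simp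

theorem ok_of {i : Fin 3} {x : s i} (h : (w i).kd x ≠ some (!t i)) :
    Ok w t (⟨i, x⟩, false) := by
  rcases hk : (w i).kd x with _ | b
  · exact ok_y hk
  · refine ok_near (hk.trans ?_)
    rw [hk] at h
    cases b <;> cases ht : t i <;> simp_all

open Classical in
/-- the vertex identity without extra variables -/
noncomputable def red [Fintype {x // v.Us x}] (x0 : {x // v.Us x}) :
    VxD w t N La {x // v.Us x} where
  em := v.em' x0
  inj := fun q hq q' hq' e => v.inj hq hq' (by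
    rw [← v.em'_val x0 hq, ← v.em'_val x0 hq', e])
  FV x := v.FV x.1
  hF i x h := by rw [v.em'_val x0 h, v.hF i x h]
  hm i x h := by rw [v.em'_val x0 h]; exact v.hm i x h
  om i x := v.om i x.1
  om_le i x := v.om_le i x.1
  om_em i x h := by rw [v.em'_val x0 h, v.om_em i x h]
  Bad := v.Bad.subtype v.Us
  cheap i q h h1 h2 := by
    rw [mem_subtype, v.em'_val x0 h] at h2
    rw [v.em'_val x0 h]
    exact v.cheap i q h h1 h2
  bad q := by rw [mem_subtype, v.em'_val x0 (ok_xi q)]; exact v.bad q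
  small := by
    refine lt_of_le_of_lt (Nat.mul_le_mul_left _ (Nat.mul_le_mul_left _ ?_)) v.small
    rw [sum_subtype_eq_sum_filter]
    exact sum_le_sum_of_subset (filter_subset _ _)
  io i := (kill v.Us).comp (v.io i)
  near i x h := by
    have := kill_Ge v.Us (FV' := fun x => v.om i x.1) (fun _ => le_rfl) (v.near i x h)
    rwa [map_sub, v.kill_em x0 (ok_of h)] at this
  far i x h := kill_Ge v.Us (FV' := fun x => v.om i x.1) (fun _ => le_rfl) (v.far i x h)
  hy i x h := by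
    have := kill_Ge v.Us (v.vw_le x0) (v.hy i x h)
    rwa [map_sub, v.kill_em x0 (ok_y h)] at this
  hyL i x h1 h := by
    have := kill_Ge v.Us (v.yi_le x0 i) (v.hyL i x h1 h)
    rwa [map_sub, v.kill_em x0 (ok_y h)] at this
  rho := (kill v.Us).comp v.rho
  hrho q := by
    have := kill_Ge v.Us (FV' := fun x => v.FV x.1) (fun _ => le_rfl) (v.hrho q)
    rw [map_sub, v.kill_em x0 (ok_xi q)] at this
    rw [v.em'_val x0 (ok_xi q)]
    exact this
  Q := v.Q
  hQ := v.hQ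
  c := v.c
  hc := v.hc
  Ps := kill v.Us v.Ps
  Ps2 := map_mx_pow _ (kill_z_mem _) v.Ps2
  hPs := kill_Ge v.Us (v.vw_le x0) v.hPs
  De := kill v.Us v.De
  De2 := map_mx_pow _ (kill_z_mem _) v.De2
  hDe := kill_Ge v.Us (v.vw_le x0) v.hDe
  hDeL := kill_Ge v.Us (v.yL_le x0) v.hDeL
  eq := by
    have h := congrArg (kill v.Us) v.eq
    rw [map_add, map_add, map_add, map_sum, map_sum] at h
    rw [AlgHom.comp_apply, ← h]
    congr 3
    · refine Finset.sum_congr rfl fun i _ => ?_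
      split_ifs <;> simp
    · refine Finset.sum_congr rfl fun i _ => ?_
      rw [map_sum]
      refine Finset.sum_congr rfl fun x _ => ?_
      split_ifs with hx
      · rw [map_smul, map_mul, v.kill_em x0 (ok_y hx.2), v.kill_em x0 (ok_m hx.1 hx.2)]
      · simp

theorem red_onto [Fintype {x // v.Us x}] (x0 x : {x // v.Us x}) :
    ∃ q, Ok w t q ∧ (v.red x0).em q = x := by
  obtain ⟨x, q, hq, rfl⟩ := x
  exact ⟨q, hq, Subtype.ext (v.em'_val x0 hq)⟩

theorem red_cub [Fintype {x // v.Us x}] (x0 : {x // v.Us x}) {al : ∀ i, s i}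
    (h : ∀ i, (w i).kd (al i) = none) : (v.red x0).cub al = v.cub al := by
  simp only [cub, red]
  rw [pd_kill, pd_kill, pd_kill, aug_kill, v.em'_val x0 (ok_dir (h 0)),
    v.em'_val x0 (ok_dir (h 1)), v.em'_val x0 (ok_dir (h 2))]

end VxD

end N255.Core
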