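import Crest.Agent.N255.Core.CG

/-! Row 255, algebraic core: moves which also shift the variables `y` (`moveG2_holds`);
the proof is helper11's proof of `moveG_holds`, adapted by helper22. -/

set_option autoImplicit false

namespace N255.Core

open Finset N255.Dr N255.Dr.O LaurentPolynomial

section
variable {p : ℕ} [Fact p.Prime] {Γ : Type} [AddCommGroup Γ] {δ : Γ}

/-- A move of the side `b` from the wall `w` to the wall `w'`: near variables and `y` correspond,
far variables are substituted, an error `R` of main weight `> 2 La` is allowed;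
the variables `y` may be shifted by terms of higher weight (for both weights). -/
structure Mv2 {s s' : Type} [Fintype s] [Fintype s'] [DecidableEq s'] (w : Wall p Γ δ s)
    (w' : Wall p Γ δ s') (N La : ℕ) (b : Bool) where
  e : s → s'
  inj : Set.InjOn e {x | w.kd x ≠ some (!b)}
  kd : ∀ x, w.kd x ≠ some (!b) → w'.kd (e x) = w.kd x
  onto : ∀ x', w'.kd x' ≠ some (!b) → ∃ x, w.kd x ≠ some (!b) ∧ e x = x'
  hF : ∀ x, w.kd x ≠ some (!b) → w'.F (e x) = w.F x
  io : O p (ZMod p) s →ₐ[ZMod p] O p (ZMod p) s'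
  hy : ∀ x, w.kd x = none → Hi (fun i => N + w'.F i) (N + w.F x) (io (z x) - z (e x)) ∧
    Hi (w'.wz N La) La (io (z x) - z (e x))
  near : ∀ x, w.kd x = some b → Hi (fun i => N + w'.F i) (N + w.F x) (io (z x) - z (e x))
  far : ∀ x, w.kd x = some (!b) → Hi (fun i => N + w'.F i) (N + w.F x) (io (z x))
  R : O p (ZMod p) s'
  R2 : R ∈ (mx : Ideal (O p (ZMod p) s')) ^ 2
  hR : Hi (w'.wz N La) (2 * La) R
  eq : w'.W = io w.W + R

end

/-- tests can be moved -/
def MoveG2 : Prop :=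
  ∀ (p : ℕ) [Fact p.Prime] (Γ : Type) [AddCommGroup Γ] (δ : Γ) (s s' : Type) [Fintype s]
    [DecidableEq s] [Fintype s'] [DecidableEq s'] (w : Wall p Γ δ s) (w' : Wall p Γ δ s')
    (N La : ℕ) (b : Bool) (m : Mv2 w w' N La b), (∀ i, 0 < N + w.F i) → (∀ i, 0 < N + w'.F i) →
    (∀ i, w'.kd i = none → N + w'.F i ≤ La) → ∀ al, w.kd al = none → w.Test N La b al →
    w'.Test N La b (m.e al)

variable {p : ℕ} [hp : Fact p.Prime] {Γ : Type} [AddCommGroup Γ] {δ : Γ} {s s' : Type}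
  [Fintype s] [DecidableEq s] [Fintype s'] [DecidableEq s']

omit [DecidableEq s] in
/-- an exact move is a move -/
def Mv.to2 {w : Wall p Γ δ s} {w' : Wall p Γ δ s'} {N La : ℕ} {b : Bool} (m : Mv w w' N La b) :
    Mv2 w w' N La b :=
  { m with hy := fun x hx => by rw [m.hy x hx, sub_self]; exact ⟨by simp [Hi], by simp [Hi]⟩ }

namespace Mv2
variable {w : Wall p Γ δ s} {w' : Wall p Γ δ s'} {N La : ℕ} {b : Bool} (m : Mv2 w w' N La b)

/-- transport of monomials without far factors -/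
def tr (x : Ix s) : Ix s' := (x.1, Om.push m.e x.2.1, x.2.2.image m.e)

omit [DecidableEq s] in
theorem push_e {a : s → ℕ} (ha : ∀ i, w.kd i = some (!b) → a i = 0) {i : s}
    (hi : w.kd i ≠ some (!b)) : Om.push m.e a (m.e i) = a i :=
  Om.push_apply fun j hj h => m.inj (fun h' => hj (ha j h')) hi h

omit [DecidableEq s] in
theorem push_eq {a : s → ℕ} (ha : ∀ i, w.kd i = some (!b) → a i = 0) {a' : s' → ℕ}
    (h1 : ∀ i, w.kd i ≠ some (!b) → a' (m.e i) = a i)
    (h2 : ∀ v, w'.kd v = some (!b) → a' v = 0) : Om.push m.e a = a' := by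
  funext v
  by_cases hv : w'.kd v = some (!b)
  · rw [h2 v hv]
    refine Om.push_eq_zero fun j hj h => ?_
    have h3 : w.kd j ≠ some (!b) := fun h' => hj (ha j h')
    exact h3 (by rw [← m.kd j h3, h, hv])
  · obtain ⟨i, hi, rfl⟩ := m.onto v hv
    rw [m.push_e ha hi, h1 i hi]

omit [DecidableEq s] in
theorem tr_inj {x y : Ix s} (hx : w.NoFar b x) (hy : w.NoFar b y) (h : m.tr x = m.tr y) :
    x = y := by
  obtain ⟨j, a, S⟩ := x
  obtain ⟨j', a', S'⟩ := y
  simp only [tr, Prod.mk.injEq] at h ⊢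
  refine ⟨h.1, funext fun i => ?_, ?_⟩
  · by_cases hi : w.kd i = some (!b)
    · exact (hx i hi).1.trans (hy i hi).1.symm
    · exact (m.push_e (fun i h => (hx i h).1) hi).symm.trans
        ((congrFun h.2.1 _).trans (m.push_e (fun i h => (hy i h).1) hi))
  · have key : ∀ {S S' : Finset s}, (∀ i, w.kd i = some (!b) → i ∉ S) →
        (∀ i, w.kd i = some (!b) → i ∉ S') → S.image m.e = S'.image m.e → S ⊆ S' := by
      intro S S' h1 h2 h3 i hi
      obtain ⟨k, hk, hk'⟩ := mem_image.1 (h3 ▸ mem_image_of_mem m.e hi)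
      rwa [← m.inj (fun h' => h2 k h' hk) (fun h' => h1 i h' hi) hk']
    exact Subset.antisymm (key (fun i h => (hx i h).2) (fun i h => (hy i h).2) h.2.2)
      (key (fun i h => (hy i h).2) (fun i h => (hx i h).2) h.2.2.symm)

omit [DecidableEq s] in
theorem e_mem_nr {i : s} (hi : w.kd i ≠ some (!b)) : m.e i ∈ w'.nr b ↔ i ∈ w.nr b := by
  rw [Wall.mem_nr, Wall.mem_nr, m.kd i hi]

omit [DecidableEq s] in
theorem image_nr : (w.nr b).image m.e = w'.nr b := by
  ext v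
  rw [mem_image]
  constructor
  · rintro ⟨i, hi, rfl⟩
    exact (m.e_mem_nr fun h => w.not_mem_nr h hi).2 hi
  · intro hv
    obtain ⟨i, hi, rfl⟩ := m.onto v fun h => w'.not_mem_nr h hv
    exact ⟨i, (m.e_mem_nr hi).1 hv, rfl⟩

theorem tr_h0 (j : ℤ) : m.tr (w.h0 b j) = w'.h0 b j := by
  refine Prod.ext rfl (Prod.ext ?_ m.image_nr)
  refine m.push_eq (fun i h => (w.noFar_h0 b j i h).1) (fun i hi => ?_)
    fun v h => (w'.noFar_h0 b j v h).1
  simp only [Wall.h0, m.e_mem_nr hi]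

omit [DecidableEq s] in
theorem kd_e {al : s} (hal : w.kd al = none) : w'.kd (m.e al) = none := by
  rw [m.kd al (by rw [hal]; simp), hal]

theorem tr_ld {al : s} (hal : w.kd al = none) : m.tr (w.ld b al) = w'.ld b (m.e al) := by
  refine Prod.ext rfl (Prod.ext ?_ m.image_nr)
  refine m.push_eq (fun i h => (w.noFar_ld b hal i h).1) (fun i hi => ?_)
    fun v h => (w'.noFar_ld b (m.kd_e hal) v h).1
  have : m.e i = m.e al ↔ i = al :=
    ⟨fun h => m.inj hi (by rw [Set.mem_ofPred_eq, hal]; simp) h, fun h => h ▸ rfl⟩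
  simp only [Wall.ld, m.e_mem_nr hi, this]

omit [DecidableEq s] in
theorem gw_tr {x : Ix s} (hx : w.NoFar b x) (wu : ℤ) {wz wd : s → ℤ} {wz' wd' : s' → ℤ}
    (hz : ∀ i, w.kd i ≠ some (!b) → wz' (m.e i) = wz i)
    (hd : ∀ i, w.kd i ≠ some (!b) → wd' (m.e i) = wd i) :
    gw wu wz' wd' (m.tr x).1 (m.tr x).2.1 (m.tr x).2.2 = gw wu wz wd x.1 x.2.1 x.2.2 := by
  simp only [gw, tr]
  congr 1
  · congr 1
    rw [← Finset.sum_fiberwise univ m.e]
    refine sum_congr rfl fun v _ => ?_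
    rw [Om.push, sum_smul]
    refine sum_congr rfl fun i hi => ?_
    by_cases h : w.kd i = some (!b)
    · simp [(hx i h).1]
    · rw [← (mem_filter.1 hi).2, hz i h]
  · rw [sum_image fun i hi j hj h => m.inj (fun h' => (hx i h').2 hi) (fun h' => (hx j h').2 hj) h]
    exact sum_congr rfl fun i hi => hd i fun h' => (hx i h').2 hi

omit [DecidableEq s] in
theorem wz_e {i : s} (hi : w.kd i ≠ some (!b)) : w'.wz N La (m.e i) = w.wz N La i := by
  simp only [Wall.wz, m.kd i hi, m.hF i hi]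

omit [DecidableEq s] in
theorem wF_tr {x : Ix s} (hx : w.NoFar b x) : w'.wF N (m.tr x) = w.wF N x := by
  rw [Wall.wF_eq, Wall.wF_eq]
  exact m.gw_tr hx _ (fun i hi => by rw [m.hF i hi]) fun i hi => by rw [m.hF i hi]

omit [DecidableEq s] in
theorem wW_tr {x : Ix s} (hx : w.NoFar b x) : w'.wW N La (m.tr x) = w.wW N La x := by
  rw [Wall.wW_eq, Wall.wW_eq]
  exact m.gw_tr hx _ (fun i hi => by rw [m.wz_e hi]) fun i hi => by rw [m.hF i hi]

theorem hm_tr {x : Ix s} (hx : w.NoFar b x) (h : w.Hm N b x) : w'.Hm N b (m.tr x) := by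
  rcases h with ⟨h, h0⟩ | ⟨h, h1⟩
  · exact Or.inl ⟨by rw [h, m.tr_h0]; rfl, h0⟩
  · refine Or.inr ⟨fun h2 => h (m.tr_inj hx (w.noFar_h0 b _) (h2.trans (m.tr_h0 _).symm)), ?_⟩
    rwa [← m.tr_h0, m.wF_tr hx, m.wF_tr (w.noFar_h0 b _)]

theorem lt_tr {al : s} (hal : w.kd al = none) {x : Ix s} (hx : w.NoFar b x)
    (h : w.Lt N La b al x) : w'.Lt N La b (m.e al) (m.tr x) := by
  unfold Wall.Lt at h ⊢
  rw [← m.tr_ld hal, m.wW_tr hx, m.wW_tr (w.noFar_ld b hal)]
  split_ifs at h ⊢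
  · refine ⟨h.1, fun be hbe h2 => ?_⟩
    obtain ⟨i, hi, rfl⟩ := m.onto be (by rw [hbe]; simp)
    have hi' : w.kd i = none := by rw [← m.kd i hi, hbe]
    exact h.2 i hi' (m.tr_inj hx (w.noFar_ld b hi') (h2.trans (m.tr_ld hi').symm))
  · exact h

/-- the substitution over the Laurent ring -/
noncomputable def ph : O p (Au p) s →ₐ[Au p] O p (Au p) s' := bcH (Au p) m.io

/-- its leading part -/
noncomputable def ps : O p (Au p) s →ₐ[Au p] O p (Au p) s' :=
  lift (fun i => if w.kd i = some (!b) then 0 else z (m.e i)) fun i => by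
    split_ifs
    · exact zero_pow hp.out.ne_zero
    · exact z_pow _

omit [DecidableEq s] in
theorem ps_z (i : s) : m.ps (z i) = if w.kd i = some (!b) then 0 else z (m.e i) := lift_z _ _ _

omit [DecidableEq s] in
theorem ph_sub (i : s) : ∃ f, Hi (fun i => N + w'.F i) (N + w.F i) f ∧
    (w.kd i = none → Hi (w'.wz N La) La f) ∧ m.ph (z i) - m.ps (z i) = bc (Au p) f := by
  rw [ps_z, ph, bcH_z]
  rcases h : w.kd i with _ | c
  · exact ⟨_, (m.hy i h).1, fun _ => (m.hy i h).2, by simp⟩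
  · by_cases hc : c = b
    · subst hc
      exact ⟨_, m.near i h, by simp, by simp⟩
    · have : c = !b := by cases c <;> cases b <;> simp_all
      subst this
      exact ⟨_, m.far i h, by simp, by simp⟩

omit [DecidableEq s] in
theorem io_mem (i : s) : m.io (z i) ∈ (mx : Ideal (O p (ZMod p) s')) := by
  rcases h : w.kd i with _ | c
  · simpa using add_mem (m.hy i h).1.mem_mx (z_mem (m.e i))
  · by_cases hc : c = b
    · subst hc
      simpa using add_mem (m.near i h).mem_mx (z_mem (m.e i))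
    · have : c = !b := by cases c <;> cases b <;> simp_all
      subst this
      exact (m.far i h).mem_mx

theorem pb_ps (x : Ix s) : Om.pb m.ps (mu x) = 0 ∨
    (w.NoFar b x ∧ ∃ ε : ℤ, ε * ε = 1 ∧ Om.pb m.ps (mu x) = ε • mu (m.tr x)) := by
  by_cases hx : w.NoFar b x
  · refine Or.inr ⟨hx, Om.pb_mu_of_z (k := ZMod p) m.ps m.e x.1 (fun i hi => ?_) ?_⟩
    · rw [ps_z, if_neg]
      intro h
      exact hi.elim (fun h' => h' (hx i h).1) (hx i h).2
    · exact fun i hi j hj h => m.inj (fun h' => (hx i h').2 hi) (fun h' => (hx j h').2 hj) h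
  · left
    simp only [Wall.NoFar, not_forall] at hx
    obtain ⟨i, hi, h⟩ := hx
    refine Om.pb_mu_eq_zero (k := ZMod p) m.ps x.1 (i := i) (by rw [ps_z, if_pos hi]) ?_
    by_contra h'
    push Not at h'
    exact h h'

theorem pb_ps_in {P : Ix s → Prop} {P' : Ix s' → Prop}
    (h : ∀ x, w.NoFar b x → P x → P' (m.tr x)) {ω : Om p (Au p) s} (hω : In P ω) :
    In P' (Om.pb m.ps ω) := by
  rw [in_iff] at hω ⊢
  refine Om.Su_le (f := Om.pbk (k := ZMod p) m.ps) (fun j a S _ hP => ?_) hω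
  rcases m.pb_ps (j, a, S) with h0 | ⟨hx, ε, -, h1⟩
  · exact (show Om.pbk (k := ZMod p) m.ps (Om.mu j a S) = 0 from h0) ▸ zero_mem _
  · exact (show Om.pbk (k := ZMod p) m.ps (Om.mu j a S) = _ from h1) ▸
      zsmul_mem (Om.mu_mem fun _ => h _ hx hP) _

theorem sub_Fil (wu : ℤ) {wz : s → ℤ} {wz' : s' → ℤ}
    (h1 : ∀ i, w.kd i ≠ some (!b) → wz' (m.e i) = wz i)
    (h2 : ∀ i, w.kd i ≠ none → wz i = N + w.F i) (h3 : ∀ v, (N + w'.F v : ℤ) ≤ wz' v)
    (h5 : ∀ i (f : O p (ZMod p) s'), w.kd i = none →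
      Hi (fun i => N + w'.F i) (N + w.F i) f → Hi (w'.wz N La) La f →
      Om.fn (bc (Au p) f) ∈ Om.Fil (k := ZMod p) wu wz' (fun i => (N + w'.F i : ℤ)) (wz i + 1))
    {n : ℤ}
    {ω : Om p (Au p) s} (hω : ω ∈ Om.Fil (k := ZMod p) wu wz (fun i => (N + w.F i : ℤ)) n) :
    Om.pb m.ph ω - Om.pb m.ps ω
        ∈ Om.Fil (k := ZMod p) wu wz' (fun i => (N + w'.F i : ℤ)) (n + 1) ∧
      Om.pb m.ph ω ∈ Om.Fil (k := ZMod p) wu wz' (fun i => (N + w'.F i : ℤ)) n := by
  have hz : ∀ i, Om.fn (m.ps (z i))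
      ∈ Om.Fil (k := ZMod p) wu wz' (fun i => (N + w'.F i : ℤ)) (wz i) := fun i => by
    rw [ps_z]
    split_ifs with h
    · simp
    · exact Om.z_mem_Sw (h1 i h).ge
  have hd : ∀ i, Om.d (Om.fn (m.ps (z i)))
      ∈ Om.Fil (k := ZMod p) wu wz' (fun i => (N + w'.F i : ℤ)) (N + w.F i) := fun i => by
    rw [ps_z]
    split_ifs with h
    · simp
    · rw [Om.d_z]; exact Om.dz_mem_Sw (by rw [m.hF i h])
  have h4 := Om.pb_sub_Fil (k := ZMod p) m.ph m.ps hz hd (fun i => ?_) (fun i => ?_) hω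
  · refine ⟨h4, ?_⟩
    simpa using add_mem (Om.Fil_mono (by omega) h4) (Om.pb_Fil (k := ZMod p) m.ps hz hd hω)
  · obtain ⟨f, hf, hf', h⟩ := m.ph_sub i
    rw [h]
    by_cases hk : w.kd i = none
    · exact h5 i f hk hf (hf' hk)
    · rw [h2 i hk]
      exact_mod_cast hf.fn_mem wu _ fun v => by exact_mod_cast h3 v
  · obtain ⟨f, hf, -, h⟩ := m.ph_sub i
    rw [h]
    exact_mod_cast hf.d_mem wu (fun v => by exact_mod_cast h3 v) fun v => by push_cast; rfl

end Mv2

theorem moveG2_holds : MoveG2 := by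
  intro p _ Γ _ δ s s' _ _ _ _ w w' N La b m _ _ hle al hal ⟨ze, h, hd, hm, hl⟩
  obtain ⟨ε, hε, hld⟩ : ∃ ε : ℤ, ε * ε = 1 ∧
      Om.pb m.ps (mu (w.ld b al)) = ε • mu (w'.ld b (m.e al)) := by
    have := Om.pb_mu_of_z (k := ZMod p) m.ps m.e (w.ld b al).1 (a := (w.ld b al).2.1)
      (S := (w.ld b al).2.2) (fun i hi => by
        rw [Mv2.ps_z, if_neg]
        intro h
        exact hi.elim (fun h' => h' (w.noFar_ld b hal i h).1) (w.noFar_ld b hal i h).2)
      fun i hi j hj h => m.inj (fun h' => (w.noFar_ld b hal i h').2 hi)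
        (fun h' => (w.noFar_ld b hal j h').2 hj) h
    rw [← m.tr_ld hal]
    exact this
  have hal' := m.kd_e hal
  have hF := fun {n : ℤ} {ω : Om p (Au p) s} => m.sub_Fil 0 (wz := fun i => (N + w.F i : ℤ))
    (wz' := fun i => (N + w'.F i : ℤ)) (fun i hi => by rw [m.hF i hi]) (fun _ _ => rfl)
    (fun _ => le_rfl) (fun i f _ hf _ => by
      exact_mod_cast hf.fn_mem 0 _ fun v => by push_cast; rfl) (n := n) (ω := ω)
  have h3 : ∀ v, N + w'.F v ≤ w'.wz N La v := fun v => by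
    unfold Wall.wz; split_ifs with h
    · exact hle v h
    · exact le_rfl
  have hW := fun {n : ℤ} {ω : Om p (Au p) s} => m.sub_Fil (2 * La : ℤ)
    (wz := fun i => (w.wz N La i : ℤ)) (wz' := fun i => (w'.wz N La i : ℤ))
    (fun i hi => by rw [m.wz_e hi]) (fun i hi => by simp [Wall.wz, hi])
    (fun v => by exact_mod_cast h3 v) (fun i f hi _ hf => by
      simpa only [Wall.wz, if_pos hi] using hf.fn_mem (2 * La : ℤ)
        (wz := fun i => (w'.wz N La i : ℤ)) _ fun v => le_rfl) (n := n) (ω := ω)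
  refine ⟨ε • Om.pb m.ph ze, ε • Om.pb m.ph h, by rw [map_zsmul, ← Om.pb_d, hd]; simp, ?_, ?_⟩
  · have h1 := m.pb_ps_in (fun x hx => m.hm_tr hx) hm
    rw [in_iff] at h1 hm ⊢
    have h2 := (hF (n := w.wF N (w.h0 b 0)) (Om.Su_mono (fun j a S _ hx => by
      simpa only [Wall.wF_eq] using w.le_of_hm N hx) hm)).1
    have h4 := Om.Su_mono (Q := fun j a S => w'.Hm N b (j, a, S)) (fun j a S _ hx =>
      w'.hm_of_lt N (by
        rw [← m.tr_h0, m.wF_tr (w.noFar_h0 b 0), w'.wF_eq]; exact hx)) h2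
    exact zsmul_mem (by simpa using add_mem h4 h1) _
  · set c : Au p := if b = true then -T (-1) else T (-1) with hc
    set n := w.wW N La (w.ld b al) with hn
    have hn' : w'.wW N La (w'.ld b (m.e al)) = n := by
      rw [← m.tr_ld hal, m.wW_tr (w.noFar_ld b hal)]
    have h1 := m.pb_ps_in (fun x hx => m.lt_tr hal hx) hl
    rw [in_iff] at h1 hl ⊢
    have hup : ∀ {ω : Om p (Au p) s'}, ω ∈ Om.Fil (k := ZMod p) (2 * La : ℤ)
        (fun i => (w'.wz N La i : ℤ)) (fun i => (N + w'.F i : ℤ)) (n + 1) →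
        ω ∈ Om.Su (k := ZMod p) fun j a S => w'.Lt N La b (m.e al) (j, a, S) := fun hω =>
      Om.Su_mono (fun j a S _ hx => w'.lt_of_lt N La hal' (by rw [hn', w'.wW_eq]; exact hx)) hω
    have hr := hW (n := n) (Om.Su_mono (fun j a S _ hx => by
      have h5 := w.le_of_lt N La hx
      rwa [← hn, w.wW_eq] at h5) hl)
    have h0 := hW (n := n) (ω := mu (w.ld b al)) (Om.mu_mem_Sw (by rw [hn, w.wW_eq]))
    have hsm : ∀ {t : Type} [Fintype t] {f : O p (ZMod p) t}, f ∈ (mx : Ideal _) ^ 2 →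
        c • bc (Au p) f ∈ (mx : Ideal (O p (Au p) t)) ^ 2 := fun hf => by
      rw [Algebra.smul_def]; exact Ideal.mul_mem_left _ _ (bc_mem_pow _ hf)
    have hE : w'.Eu b = E (c • bc (Au p) m.R) * m.ph (w.Eu b) := by
      rw [Wall.Eu, Wall.Eu, ← hc, E_map m.ph (fun i => by
        rw [Mv2.ph, bcH_z]; exact bc_mem _ (m.io_mem i)) (hsm w.W2), map_smul, Mv2.ph, bcH_bc,
        ← E_add (hsm m.R2) (hsm (map_mx_pow m.io m.io_mem w.W2)), ← smul_add, ← map_add, m.eq,
        add_comm]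
    have hR : Om.fn (c • bc (Au p) m.R) ∈ Om.Fil (k := ZMod p) (2 * La : ℤ)
        (fun i => (w'.wz N La i : ℤ)) (fun i => (N + w'.F i : ℤ)) 1 := by
      have h5 := Om.Sw_T (k := ZMod p) (B := (1 ≤ ·)) (-1) (fun x hx => by
        simp only [smul_eq_mul] at hx ⊢; push_cast at hx; omega)
        (m.hR.fn_mem (2 * La : ℤ) (fun i => (N + w'.F i : ℤ)) fun _ => le_rfl)
      rw [Om.fn_smul, hc]
      split_ifs
      · rw [neg_smul]; exact neg_mem h5
      · exact h5
    have hX := (Om.E_Fil (k := ZMod p) (by norm_num) (hsm m.R2) hR).2.1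
    set X := E (c • bc (Au p) m.R)
    set η := w.Eu b • (Om.d ze + h)
    have hη : Om.pb m.ph η ∈ Om.Fil (k := ZMod p) (2 * La : ℤ)
        (fun i => (w'.wz N La i : ℤ)) (fun i => (N + w'.F i : ℤ)) n := by
      simpa using add_mem hr.2 h0.2
    have key : w'.Eu b • (Om.d (ε • Om.pb m.ph ze) + ε • Om.pb m.ph h) - mu (w'.ld b (m.e al))
        = ε • (Om.fn (X - 1) * Om.pb m.ph η
          + (Om.pb m.ph (η - mu (w.ld b al)) - Om.pb m.ps (η - mu (w.ld b al)))
          + Om.pb m.ps (η - mu (w.ld b al))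
          + (Om.pb m.ph (mu (w.ld b al)) - Om.pb m.ps (mu (w.ld b al)))) := by
      have e1 : w'.Eu b • (Om.d (ε • Om.pb m.ph ze) + ε • Om.pb m.ph h)
          = ε • (X • Om.pb m.ph η) := by
        rw [hE, map_zsmul, ← smul_add, smul_comm, mul_smul, ← Om.pb_d, ← map_add, ← Om.pb_smul]
      have e2 : mu (w'.ld b (m.e al)) = ε • Om.pb m.ps (mu (w.ld b al)) := by
        rw [hld, smul_smul, hε, one_smul]
      rw [e1, e2, ← smul_sub, Om.fn_mul, sub_smul, one_smul, map_sub (Om.pb m.ph)]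
      congr 1
      abel
    rw [key]
    refine zsmul_mem (add_mem (add_mem (add_mem (hup ?_) (hup hr.1)) h1) (hup h0.1)) _
    exact Om.Fil_mono (by omega) (Om.Fil_mul hX hη)

/-- THE ALGEBRAIC CORE, multi-scale form: three walls `w`; for each pattern `t` moves to walls
`w'` (bounded far part) which satisfy a vertex identity. -/
def CoreG2 : Prop :=
  ∀ (p : ℕ) [Fact p.Prime], p ≠ 2 → ∀ (Γ : Type) [AddCommGroup Γ] (δ : Γ) (s : Fin 3 → Type)
    [∀ i, Fintype (s i)] (w : ∀ i, Wall p Γ δ (s i)) (N La : ℕ) (D : ∀ i, ZMod p → s i),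
    (∀ i d, (w i).kd (D i d) = none) → (∀ i x, 0 < N + (w i).F x) → ∀ m0 : ZMod p,
    (∀ t : Fin 3 → Bool, ∃ (s' : Fin 3 → Type) (_ : ∀ i, Fintype (s' i))
      (_ : ∀ i, DecidableEq (s' i)) (w' : ∀ i, Wall p Γ δ (s' i))
      (m : ∀ i, Mv2 (w i) (w' i) N La (t i)) (N' : ℕ) (F' : ∀ i, s' i → ℕ),
      (∀ i x, 0 < N + (w' i).F x) ∧ (∀ i x, (w' i).kd x = none → N + (w' i).F x ≤ La) ∧
      (∀ i, ∀ x ∈ (w' i).nr (t i), N' + F' i x ≤ N + (w' i).F x) ∧
      (∀ i x, x ∉ (w' i).nr (t i) → N + (w' i).F x ≤ N' + F' i x) ∧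
      (∀ i al, (w' i).kd al = none → ((w' i).reF (F' i)).Gd N' La (t i) al) ∧
      ∃ (V : Type) (_ : Fintype V) (v : VxE (fun i => (w' i).reF (F' i)) t N' La V),
        ∀ d : Fin 3 → ZMod p, ∑ i, (if t i = true then d i else m0 - d i) = m0 →
          v.cub (fun i => (m i).e (D i (d i))) ≠ 0) → False

theorem coreG2_of (hD : DichG) (hM : MoveG2) (hV : VertexG) : CoreG2 := by
  intro p hp hp2 Γ _ δ s _ w N La D hDk hpos m0 h
  classical
  have hL : 0 < La := by
    obtain ⟨s', _, _, w', m, N', F', h1, h2, -⟩ := h fun _ => true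
    exact (h1 0 _).trans_le (h2 0 ((m 0).e (D 0 0)) (by
      rw [(m 0).kd _ (by simp [hDk]), hDk]))
  have hs : ∀ i, ∃ b, (w i).Strong N La b (D i) := fun i =>
    (strong_orG hD hp2 (w i) N hL (hDk i)).elim (fun h => ⟨_, h⟩) fun h => ⟨_, h⟩
  choose t ht using hs
  obtain ⟨s', _, _, w', m, N', F', h1, h2, h3, h4, h5, V, _, v, hv⟩ := h t
  have hk : ∀ i d, (w' i).kd ((m i).e (D i d)) = none := fun i d => by
    rw [(m i).kd _ (by simp [hDk]), hDk]
  refine no_threeE hV v (D := fun i d => (m i).e (D i d)) hk (fun i d => h5 i _ (hk i d)) hv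
    fun i => (ht i).imp fun d hd => ?_
  exact (hM p Γ δ _ _ (w i) (w' i) N La (t i) (m i) (hpos i) (h1 i) (h2 i) _ (hDk i d) hd).reF
    (hk i d) N' (F' i) (h3 i) (h4 i)

theorem coreG2_of_vertex (hV : VertexG) : CoreG2 :=
  coreG2_of N255.Ts.dichG_holds moveG2_holds hV

end N255.Core
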