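import Crest.Agent.N255.Core.GenH
import Crest.Agent.N255.Lv.Tr

/-! Row 255 (helper45): walls indexed by the orbits of a subgroup `F` of the free group; `NoLab`, `CoreF`. -/

set_option autoImplicit false

namespace N255.Core

open N255.Dr N255.Dr.O Finset Crest.Agent.N255.Pt Crest.Agent.N255.Lv

variable {ι : Type}

/-- the `F`-orbits of geometric edges -/
abbrev Wo (F : Subgroup (FreeGroup ι)) : Type := Quotient (QuotientGroup.rightRel F) × ι

/-- the orbit of an edge -/
def cl (F : Subgroup (FreeGroup ι)) (e : Ed ι) : Wo F := (Quotient.mk _ (og e.v e.k), e.k.1)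

/-- the positive representative of an orbit -/
noncomputable def rp {F : Subgroup (FreeGroup ι)} (c : Wo F) : Ed ι := ⟨c.1.out, (c.2, true)⟩

/-- the positive orientation of an edge -/
def pe (e : Ed ι) : Ed ι := ⟨og e.v e.k, (e.k.1, true)⟩

variable {F : Subgroup (FreeGroup ι)}

theorem pe_true (v : FreeGroup ι) (i : ι) : pe ⟨v, (i, true)⟩ = ⟨v, (i, true)⟩ := rfl

theorem pe_false (v : FreeGroup ι) (i : ι) : pe ⟨v, (i, false)⟩ = rev ⟨v, (i, false)⟩ := rfl

theorem pe_eq (e : Ed ι) : pe e = if e.k.2 = true then e else rev e := by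
  obtain ⟨v, i, _ | _⟩ := e <;> rfl

@[simp] theorem cl_snd (e : Ed ι) : (cl F e).2 = e.k.1 := rfl

@[simp] theorem rp_k (c : Wo F) : (rp c).k = (c.2, true) := rfl

@[simp] theorem cl_pe (e : Ed ι) : cl F (pe e) = cl F e := rfl

@[simp] theorem cl_rev (e : Ed ι) : cl F (rev e) = cl F e :=
  Prod.ext (congrArg (Quotient.mk _) (og_op e.v e.k)) rfl

@[simp] theorem cl_rp (c : Wo F) : cl F (rp c) = c := Prod.ext (Quotient.out_eq c.1) rfl

theorem cl_smul (f : F) (e : Ed ι) : cl F (f.1 • e) = cl F e := by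
  refine Prod.ext (Quotient.sound (QuotientGroup.rightRel_apply.2 ?_)) rfl
  show og e.v e.k * (og (f.1 * e.v) e.k)⁻¹ ∈ F
  rw [og_mul, mul_inv_rev, mul_inv_cancel_left]
  exact F.inv_mem f.2

/-- every edge is a translate of the representative of its orbit -/
theorem exists_rp (e : Ed ι) : ∃ f : F, f.1 • rp (cl F e) = pe e := by
  have h : og e.v e.k * ((cl F e).1.out)⁻¹ ∈ F :=
    QuotientGroup.rightRel_apply.1 (Quotient.exact (Quotient.out_eq (cl F e).1))
  exact ⟨⟨_, h⟩, L.ext (inv_mul_cancel_right _ _) rfl⟩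

instance finQ [F.FiniteIndex] : Finite (Quotient (QuotientGroup.rightRel F)) :=
  .of_equiv _ (QuotientGroup.quotientRightRelEquivQuotientLeftRel F).symm

/-- every choice of sides of the walls points, at some vertex, to walls of all types -/
def NoLab (F : Subgroup (FreeGroup ι)) : Prop :=
  ∀ σ : Wo F → Bool, ∃ (v : FreeGroup ι) (t : ι → Bool), ∀ i, σ (cl F ⟨v, (i, t i)⟩) = t i

theorem NoLab.mono {F' : Subgroup (FreeGroup ι)} (h : NoLab F) (hF : F ≤ F') : NoLab F' := by
  intro σ
  let π : Quotient (QuotientGroup.rightRel F) → Quotient (QuotientGroup.rightRel F') :=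
    Quotient.map id fun a b e =>
      QuotientGroup.rightRel_apply.2 (hF (QuotientGroup.rightRel_apply.1 e))
  exact h fun c => σ (π c.1, c.2)

theorem noLab_top : NoLab (⊤ : Subgroup (FreeGroup ι)) := fun σ => by
  refine ⟨1, fun i => σ (cl ⊤ ⟨1, (i, true)⟩), fun i => congrArg σ ?_⟩
  exact Prod.ext (Quotient.sound (QuotientGroup.rightRel_apply.2 trivial)) rfl

/-- odd index, one type of edges consists of loops -/
theorem noLab_odd {F : Subgroup (FreeGroup (Fin 3))} (hF : Odd F.index) (i0 : Fin 3)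
    (h0 : ∀ v, v * FreeGroup.of i0 * v⁻¹ ∈ F) : NoLab F := by
  classical
  intro σ
  have : F.FiniteIndex := ⟨hF.pos.ne'⟩
  let Q := Quotient (QuotientGroup.rightRel F)
  have : Fintype Q := Fintype.ofFinite Q
  have hQ : Odd (Fintype.card Q) := by
    rw [← Nat.card_eq_fintype_card,
      Nat.card_congr (QuotientGroup.quotientRightRelEquivQuotientLeftRel F)]
    exact hF
  let τ : FreeGroup (Fin 3) → Q → Q := fun g => Quotient.map (· * g) fun a b e =>
    QuotientGroup.rightRel_apply.2 (by simpa [mul_assoc] using QuotientGroup.rightRel_apply.1 e)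
  have hτ : ∀ g q, τ g (τ g⁻¹ q) = q := fun g q => by
    induction q using Quotient.inductionOn with
    | h a => exact congrArg (Quotient.mk _) (inv_mul_cancel_right a g)
  let B : Fin 3 → Finset Q := fun i =>
    {q | σ (q, i) = false ∧ σ (τ (FreeGroup.of i)⁻¹ q, i) = true}
  have hB : ∀ i, 2 * (B i).card < Fintype.card Q := fun i => by
    have h1 : (B i).card ≤ (B i)ᶜ.card := by
      refine card_le_card_of_injOn (τ (FreeGroup.of i)⁻¹) (fun q hq => ?_) fun a _ b _ e => ?_
      · simp only [B, coe_filter, mem_univ, true_and, Set.mem_ofPred_eq, coe_compl,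
          Set.mem_compl_iff] at hq ⊢
        exact fun h => by simp [hq.2] at h
      · rw [← hτ (FreeGroup.of i) a, e, hτ]
    rw [card_compl] at h1
    have := card_le_univ (B i)
    obtain ⟨m, hm⟩ := hQ
    omega
  have hB0 : B i0 = ∅ := by
    refine filter_eq_empty_iff.2 fun q _ h => ?_
    have : τ (FreeGroup.of i0)⁻¹ q = q := by
      induction q using Quotient.inductionOn with
      | h a => exact Quotient.sound (QuotientGroup.rightRel_apply.2 (by
          simpa [mul_assoc] using h0 a))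
    rw [this, h.1] at h
    exact absurd h.2 (by simp)
  obtain ⟨q, hq⟩ : ∃ q, ∀ i, q ∉ B i := by
    by_contra hc
    push Not at hc
    have h1 : (univ : Finset Q) ⊆ univ.biUnion B := fun q _ => by
      obtain ⟨i, hi⟩ := hc q
      exact mem_biUnion.2 ⟨i, mem_univ _, hi⟩
    have h2 := (card_le_card h1).trans card_biUnion_le
    rw [Fin.sum_univ_three, card_univ] at h2
    have := hB 0; have := hB 1; have := hB 2
    have h3 : (B i0).card = 0 := by rw [hB0]; rfl
    fin_cases i0 <;> simp only [Fin.zero_eta, Fin.mk_one, Fin.reduceFinMk] at h3 <;> omega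
  induction q using Quotient.inductionOn with
  | h v =>
    refine ⟨v, fun i => σ (Quotient.mk _ v, i) , fun i => ?_⟩
    have h1 := hq i
    simp only [B, mem_filter, mem_univ, true_and, not_and] at h1
    beta_reduce
    cases h : σ (Quotient.mk _ v, i)
    · have h2 := h1 h
      rw [Bool.not_eq_true] at h2
      rw [cl, og_false, x_false]
      exact h2
    · exact h

/-- the subgroups `χ⁻¹(nℤ)`, `n` odd -/
theorem noLab_chi (χ : FreeGroup (Fin 3) →* Multiplicative ℤ) {n : ℤ} (hn : Odd n) (i0 : Fin 3)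
    (h0 : χ (FreeGroup.of i0) = 1) {F : Subgroup (FreeGroup (Fin 3))}
    (hF : ∀ f, n ∣ (χ f).toAdd → f ∈ F) : NoLab F := by
  let φ : FreeGroup (Fin 3) →* Multiplicative (ZMod n.natAbs) :=
    (AddMonoidHom.toMultiplicative (Int.castAddHom (ZMod n.natAbs))).comp χ
  have ho : Odd n.natAbs := Int.natAbs_odd.2 hn
  have : NeZero n.natAbs := ⟨ho.pos.ne'⟩
  refine (noLab_odd (F := φ.ker) ?_ i0 fun v => ?_).mono fun f hf => hF f ?_
  · rw [Subgroup.index_ker]
    refine Odd.of_dvd_nat ho ?_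
    simpa using Subgroup.card_subgroup_dvd_card φ.range
  · simp [φ, MonoidHom.mem_ker, h0]
  · have : ((χ f).toAdd : ZMod n.natAbs) = 0 := congrArg Multiplicative.toAdd hf
    exact Int.natAbs_dvd.1 ((ZMod.intCast_zmod_eq_zero_iff_dvd _ _).1 this)

/-- walls with even weights have a strong side -/
theorem exists_strong {p : ℕ} [Fact p.Prime] (hp2 : p ≠ 2) {Γ : Type} [AddCommGroup Γ] {δ : Γ}
    {I : Type} {s : I → Type} [∀ c, Fintype (s c)] [∀ c, DecidableEq (s c)]
    (w : ∀ c, Wall p Γ δ (s c)) (N : ℕ) {La : ℕ} (hL : 0 < La) {D : ∀ c, ZMod p → s c}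
    (hD : ∀ c d, (w c).kd (D c d) = none) :
    ∃ σ : I → Bool, ∀ c, (w c).Strong N La (σ c) (D c) := by
  have hs : ∀ c, ∃ b, (w c).Strong N La b (D c) := fun c =>
    (strong_orG N255.Ts.dichG_holds hp2 (w c) N hL (hD c)).elim (fun h => ⟨_, h⟩) fun h => ⟨_, h⟩
  choose σ hσ using hs
  exact ⟨σ, hσ⟩

/-- THE ALGEBRAIC CORE for walls indexed by `F`-orbits: vertex identities at all vertices `v` for all
choices `t` of one half edge of every type are impossible. -/
def CoreF : Prop :=
  ∀ (p : ℕ) [Fact p.Prime], p ≠ 2 → ∀ (Γ : Type) [AddCommGroup Γ] (δ : Γ)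
    (F : Subgroup (FreeGroup (Fin 3))), NoLab F → ∀ (s : Wo F → Type) [∀ c, Fintype (s c)]
    (w : ∀ c, Wall p Γ δ (s c)) (N La : ℕ) (D : ∀ c, ZMod p → s c),
    (∀ c d, (w c).kd (D c d) = none) → (∀ c x, 0 < N + (w c).F x) →
    (∀ c x, (w c).kd x = none → N + (w c).F x ≤ La) → Odd La → (∀ c x, Even (N + (w c).F x)) →
    ∀ m0 : ZMod p, (∀ (v : FreeGroup (Fin 3)) (t : Fin 3 → Bool), ∃ (V : Type) (_ : Fintype V)
      (x : VxH (fun i => w (cl F ⟨v, (i, t i)⟩)) t N La V),
        ∀ d : Fin 3 → ZMod p, ∑ i, (if t i = true then d i else m0 - d i) = m0 →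
          x.cub (fun i => D _ (d i)) ≠ 0) → False

theorem coreF_of (hV : VertexH) : CoreF := by
  intro p hp hp2 Γ _ δ F hF s _ w N La D hDk hpos hle hO hE m0 h
  classical
  obtain ⟨σ, hσ⟩ := exists_strong hp2 w N hO.pos hDk
  obtain ⟨v, t, ht⟩ := hF σ
  obtain ⟨V, _, x, hx⟩ := h v t
  exact no_threeH hV x (fun i => hDk _) (fun i d => (w _).gh_of N La (hDk _ d) (hpos _) (hle _)
    (Or.inr ⟨hO, hE _⟩)) hx fun i => by have := hσ (cl F ⟨v, (i, t i)⟩); rwa [ht i] at this

end N255.Core
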