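import Crest.Agent.N255.Core.Typ
import Crest.Agent.N255.Vh.Main

/-! Row 255 (helper45): the typed core holds, with and without defect. -/

set_option autoImplicit false

namespace N255.Core

open N255.Dr N255.Dr.O Finset Crest.Agent.N255.Pt

/-- `CoreF` with the defect term -/
def CoreFD : Prop :=
  ∀ (p : ℕ) [Fact p.Prime], p ≠ 2 → ∀ (Γ : Type) [AddCommGroup Γ] (δ : Γ)
    (F : Subgroup (FreeGroup (Fin 3))), NoLab F → ∀ (s : Wo F → Type) [∀ c, Fintype (s c)]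
    (w : ∀ c, Wall p Γ δ (s c)) (N La : ℕ) (D : ∀ c, ZMod p → s c),
    (∀ c d, (w c).kd (D c d) = none) → (∀ c x, 0 < N + (w c).F x) →
    (∀ c x, (w c).kd x = none → N + (w c).F x ≤ La) → Odd La → (∀ c x, Even (N + (w c).F x)) →
    ∀ m0 : ZMod p, (∀ (v : FreeGroup (Fin 3)) (t : Fin 3 → Bool), ∃ (V : Type) (_ : Fintype V)
      (x : VxD (fun i => w (cl F ⟨v, (i, t i)⟩)) t N La V),
        ∀ d : Fin 3 → ZMod p, ∑ i, (if t i = true then d i else m0 - d i) = m0 →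
          x.cub (fun i => D _ (d i)) ≠ 0) → False

theorem coreFD_holds : CoreFD := by
  intro p hp hp2 Γ _ δ F hF s _ w N La D hDk hpos hle hO hE m0 h
  classical
  obtain ⟨σ, hσ⟩ := exists_strong hp2 w N hO.pos hDk
  obtain ⟨v, t, ht⟩ := hF σ
  obtain ⟨V, _, x, hx⟩ := h v t
  have hS : ∀ i, (w (cl F ⟨v, (i, t i)⟩)).Strong N La (t i) (D _) := fun i => by
    have := hσ (cl F ⟨v, (i, t i)⟩); rwa [ht i] at this
  obtain ⟨d, h1, h2⟩ := exists_dirs m0 hS
  exact hx d h1 (N255.Vh.vertexD_holds p Γ δ _ _ t N La V x _ (fun i => hDk _ _)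
    (fun i => (w _).gh_of N La (hDk _ _) (hpos _) (hle _) (Or.inr ⟨hO, hE _⟩)) h2)

theorem coreF_holds : CoreF := coreF_of N255.Vh.vertexH_holds

end N255.Core
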