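import Crest.Agent.N255.Core.TypK

/-! Row 255 (helper45): the typed core needs vertex identities only at finitely many vertices. -/

set_option autoImplicit false

namespace N255.Core

open N255.Dr N255.Dr.O Finset Crest.Agent.N255.Pt Crest.Agent.N255.Lv

variable {ι : Type} {F : Subgroup (FreeGroup ι)}

/-- finitely many vertices meet every orbit -/
theorem exists_T (F : Subgroup (FreeGroup ι)) [F.FiniteIndex] :
    ∃ T : Finset (FreeGroup ι), ∀ v, ∃ f : F, f.1 * v ∈ T := by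
  have h := Set.finite_range (Quotient.out (s := QuotientGroup.rightRel F))
  refine ⟨h.toFinset, fun v => ?_⟩
  have k : v * (Quotient.mk (QuotientGroup.rightRel F) v).out⁻¹ ∈ F :=
    QuotientGroup.rightRel_apply.1 (Quotient.exact (Quotient.out_eq _))
  refine ⟨⟨_, k⟩⁻¹, h.mem_toFinset.2 ⟨Quotient.mk _ v, ?_⟩⟩
  simp

theorem NoLab.flipT (h : NoLab F) (ka σ : Wo F → Bool) {T : Set (FreeGroup ι)}
    (hT : ∀ v, ∃ f : F, f.1 * v ∈ T) :
    ∃ v ∈ T, ∃ u : ι → Bool, ∀ i, σ (cl F ⟨v, (i, u i)⟩) = tk ka ⟨v, (i, u i)⟩ := by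
  obtain ⟨v, u, hu⟩ := h.flip ka σ
  obtain ⟨f, hf⟩ := hT v
  refine ⟨_, hf, u, fun i => ?_⟩
  have h1 := cl_smul f (⟨v, (i, u i)⟩ : Ed ι)
  have h2 := tk_smul ka f (⟨v, (i, u i)⟩ : Ed ι)
  rw [smul_mk] at h1 h2
  rw [h1, h2, hu]

/-- THE CORE with vertex identities (with defect) at the vertices of `T` only -/
theorem coreKRD (p : ℕ) [Fact p.Prime] (hp2 : p ≠ 2) (Γ : Type) [AddCommGroup Γ] (δ : Γ)
    {F : Subgroup (FreeGroup (Fin 3))} (hF : NoLab F) (ka : Wo F → Bool) (s : Wo F → Type)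
    [∀ c, Fintype (s c)] (w : ∀ c, Wall p Γ δ (s c)) (N La : ℕ) (D : ∀ c, ZMod p → s c)
    (hDk : ∀ c d, (w c).kd (D c d) = none) (hpos : ∀ c x, 0 < N + (w c).F x)
    (hle : ∀ c x, (w c).kd x = none → N + (w c).F x ≤ La) (hO : Odd La)
    (hE : ∀ c x, Even (N + (w c).F x)) (m0 : ZMod p) {T : Set (FreeGroup (Fin 3))}
    (hT : ∀ v, ∃ f : F, f.1 * v ∈ T)
    (h : ∀ v ∈ T, ∀ u : Fin 3 → Bool, ∃ (V : Type) (_ : Fintype V)
      (x : VxD (fun i => w (cl F ⟨v, (i, u i)⟩)) (fun i => tk ka ⟨v, (i, u i)⟩) N La V),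
        ∀ d : Fin 3 → ZMod p, ∑ i, (if tk ka ⟨v, (i, u i)⟩ = true then d i else m0 - d i) = m0 →
          x.cub (fun i => D _ (d i)) ≠ 0) : False := by
  classical
  obtain ⟨σ, hσ⟩ := exists_strong hp2 w N hO.pos hDk
  obtain ⟨v, hv, u, hu⟩ := hF.flipT ka σ hT
  obtain ⟨V, _, x, hx⟩ := h v hv u
  exact no_threeD N255.Vh.vertexD_holds x (fun i => hDk _)
    (fun i d => (w _).gh_of N La (hDk _ d) (hpos _) (hle _) (Or.inr ⟨hO, hE _⟩)) hx
    fun i => by have := hσ (cl F ⟨v, (i, u i)⟩); rwa [hu i] at this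

/-- THE CORE with vertex identities at the vertices of `T` only -/
theorem coreKR (p : ℕ) [Fact p.Prime] (hp2 : p ≠ 2) (Γ : Type) [AddCommGroup Γ] (δ : Γ)
    {F : Subgroup (FreeGroup (Fin 3))} (hF : NoLab F) (ka : Wo F → Bool) (s : Wo F → Type)
    [∀ c, Fintype (s c)] (w : ∀ c, Wall p Γ δ (s c)) (N La : ℕ) (D : ∀ c, ZMod p → s c)
    (hDk : ∀ c d, (w c).kd (D c d) = none) (hpos : ∀ c x, 0 < N + (w c).F x)
    (hle : ∀ c x, (w c).kd x = none → N + (w c).F x ≤ La) (hO : Odd La)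
    (hE : ∀ c x, Even (N + (w c).F x)) (m0 : ZMod p) {T : Set (FreeGroup (Fin 3))}
    (hT : ∀ v, ∃ f : F, f.1 * v ∈ T)
    (h : ∀ v ∈ T, ∀ u : Fin 3 → Bool, ∃ (V : Type) (_ : Fintype V)
      (x : VxH (fun i => w (cl F ⟨v, (i, u i)⟩)) (fun i => tk ka ⟨v, (i, u i)⟩) N La V),
        ∀ d : Fin 3 → ZMod p, ∑ i, (if tk ka ⟨v, (i, u i)⟩ = true then d i else m0 - d i) = m0 →
          x.cub (fun i => D _ (d i)) ≠ 0) : False := by
  classical
  obtain ⟨σ, hσ⟩ := exists_strong hp2 w N hO.pos hDk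
  obtain ⟨v, hv, u, hu⟩ := hF.flipT ka σ hT
  obtain ⟨V, _, x, hx⟩ := h v hv u
  exact no_threeH N255.Vh.vertexH_holds x (fun i => hDk _)
    (fun i d => (w _).gh_of N La (hDk _ d) (hpos _) (hle _) (Or.inr ⟨hO, hE _⟩)) hx
    fun i => by have := hσ (cl F ⟨v, (i, u i)⟩); rwa [hu i] at this

end N255.Core
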