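import Crest.Agent.N255.Core.Ar
import Crest.Agent.N255.Core.All
import Crest.Agent.N255.Dr.Br

/-! Row 255, algebraic core: wrappers (linear hypotheses, extra variables, change of weights) and
the producer form `CoreG`. -/

set_option autoImplicit false

namespace N255.Core

open N255.Dr N255.Dr.O Finset

variable {p : ℕ} [hp : Fact p.Prime] {Γ : Type} [AddCommGroup Γ] {δ : Γ}

section Hi
variable {V : Type} [Fintype V] {FV : V → ℕ} {n : ℕ} {f g : O p (ZMod p) V}

theorem Hi.mono (h : Hi FV n f) {FV' : V → ℕ} {n' : ℕ} (hF : ∀ v, FV v ≤ FV' v) (hn : n' ≤ n) :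
    Hi FV' n' f := fun a ha =>
  hn.trans_lt ((h a ha).trans_le (sum_le_sum fun v _ => Nat.mul_le_mul_left _ (hF v)))

theorem Hi.mem (h : Hi FV n f) : f ∈ (mx : Ideal (O p (ZMod p) V)) := by
  rw [mem_mx, ← cf_zero]
  by_contra h0
  simpa using h 0 h0

theorem Hi.zero : Hi FV n (0 : O p (ZMod p) V) := fun a ha => by simp at ha

theorem Hi.add (h : Hi FV n f) (h' : Hi FV n g) : Hi FV n (f + g) := fun a ha => by
  by_cases h1 : cf a f = 0
  · exact h' a (by simpa [h1] using ha)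
  · exact h a h1

theorem Hi.neg (h : Hi FV n f) : Hi FV n (-f) := fun a ha => h a (by simpa using ha)

theorem Hi.sub (h : Hi FV n f) (h' : Hi FV n g) : Hi FV n (f - g) := by
  rw [sub_eq_add_neg]; exact h.add h'.neg

theorem Hi.smul (h : Hi FV n f) (c : ZMod p) : Hi FV n (c • f) := fun a ha =>
  h a fun h0 => ha (by rw [map_smul, h0, smul_zero])

omit hp in
theorem eq_single_of_sum {a : V → ℕ} [DecidableEq V] (h : ∑ v, a v = 1) :
    ∃ v, a = Pi.single v 1 := by
  obtain ⟨v, -, hv⟩ := exists_ne_zero_of_sum_ne_zero (s := univ) (f := a) (by omega)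
  have hs := add_sum_erase univ a (mem_univ v)
  have h0 : ∑ x ∈ univ.erase v, a x = 0 := by omega
  refine ⟨v, funext fun x => ?_⟩
  by_cases hx : x = v
  · subst hx; simp; omega
  · rw [Pi.single_eq_of_ne hx]
    exact sum_eq_zero_iff.1 h0 x (by simp [hx])

/-- linear hypotheses suffice when all weights are at least `N` and `n < 2 N` -/
theorem hi_of_lin {N : ℕ} (hN : ∀ v, N ≤ FV v) (hn : n < 2 * N)
    (hf : f ∈ (mx : Ideal (O p (ZMod p) V))) (h : ∀ v, FV v ≤ n → lin v f = 0) : Hi FV n f := by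
  classical
  intro a ha
  have h1 : (∑ v, a v) * N ≤ ∑ v, a v * FV v := by
    rw [sum_mul]; exact sum_le_sum fun v _ => Nat.mul_le_mul_left _ (hN v)
  by_cases h2 : 2 ≤ ∑ v, a v
  · exact hn.trans_le ((Nat.mul_le_mul_right _ h2).trans h1)
  by_cases h3 : ∑ v, a v = 0
  · exact absurd (cf_eq_zero_of_mem_pow (n := 1) (by simpa using hf) (by omega)) ha
  obtain ⟨v, rfl⟩ := eq_single_of_sum (a := a) (by omega)
  rw [← lin_eq_cf] at ha
  have : ∑ x, (Pi.single v 1 : V → ℕ) x * FV x = FV v := by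
    rw [sum_eq_single v] <;> simp +contextual [Pi.single_eq_of_ne]
  rw [this]
  exact lt_of_not_ge fun h' => ha (h v h')

theorem cf_mul_ne [DecidableEq V] {a : V → ℕ} (h : cf a (f * g) ≠ 0) :
    ∃ b c, cf b f ≠ 0 ∧ cf c g ≠ 0 ∧ b + c = a := by
  by_contra hc
  push Not at hc
  apply h
  rw [← sum_cf f, ← sum_cf g, sum_mul_sum, map_sum]
  refine sum_eq_zero fun b _ => ?_
  rw [map_sum]
  refine sum_eq_zero fun c _ => ?_
  rw [smul_mul_smul_comm, ← zm_add, map_smul, cf_zm]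
  by_cases h1 : cf b f = 0
  · simp [h1]
  by_cases h2 : cf c g = 0
  · simp [h2]
  rw [if_neg fun h => hc b c h1 h2 h.1.symm, smul_zero]

/-- the functions all of whose monomials have weight at least `n` -/
def Ge (FV : V → ℕ) (n : ℕ) : Ideal (O p (ZMod p) V) where
  carrier := {f | ∀ a : V → ℕ, cf a f ≠ 0 → n ≤ ∑ v, a v * FV v}
  zero_mem' := fun a ha => by simp at ha
  add_mem' := fun {f g} h h' a ha => by
    by_cases h1 : cf a f = 0
    · exact h' a (by simpa [h1] using ha)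
    · exact h a h1
  smul_mem' := fun c f h a ha => by
    classical
    obtain ⟨b, c, -, h2, rfl⟩ := cf_mul_ne ha
    refine (h c h2).trans (sum_le_sum fun v _ => Nat.mul_le_mul_right _ ?_)
    simp

theorem mem_Ge : f ∈ Ge FV n ↔ ∀ a : V → ℕ, cf a f ≠ 0 → n ≤ ∑ v, a v * FV v := Iff.rfl

theorem hi_iff : Hi FV n f ↔ f ∈ Ge FV (n + 1) := Iff.rfl

theorem Ge_mul {m : ℕ} : (Ge FV n : Ideal (O p (ZMod p) V)) * Ge FV m ≤ Ge FV (n + m) := by
  classical
  refine Ideal.mul_le.2 fun f hf g hg a ha => ?_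
  obtain ⟨b, c, h1, h2, rfl⟩ := cf_mul_ne ha
  simp only [Pi.add_apply, add_mul, sum_add_distrib]
  exact add_le_add (hf b h1) (hg c h2)

theorem Ge_pow (k : ℕ) : (Ge FV n : Ideal (O p (ZMod p) V)) ^ k ≤ Ge FV (k * n) := by
  induction k with
  | zero => intro f _ a _; simp
  | succ k ih => rw [pow_succ, add_mul, one_mul]; exact (Ideal.mul_mono_left ih).trans Ge_mul

theorem Ge_anti {m : ℕ} (h : m ≤ n) : (Ge FV n : Ideal (O p (ZMod p) V)) ≤ Ge FV m :=
  fun _ hf a ha => h.trans (hf a ha)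

theorem zm_mem_Ge (a : V → ℕ) : (zm a : O p (ZMod p) V) ∈ Ge FV (∑ v, a v * FV v) := by
  classical
  intro b hb
  rw [cf_zm] at hb
  split_ifs at hb with h
  · rw [h.1]
  · exact absurd rfl hb

theorem z_mem_Ge (v : V) : (z v : O p (ZMod p) V) ∈ Ge FV (FV v) := by
  classical
  have := zm_mem_Ge (p := p) (FV := FV) (Pi.single v 1)
  rwa [zm_single, pow_one, sum_eq_single v, Pi.single_eq_same, one_mul] at this <;>
    simp +contextual [Pi.single_eq_of_ne]

/-- weight preserving substitutions -/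
theorem Ge_map {V' : Type} [Fintype V'] {FV' : V' → ℕ}
    (φ : O p (ZMod p) V →ₐ[ZMod p] O p (ZMod p) V') (h : ∀ v, φ (z v) ∈ Ge FV' (FV v))
    (hf : f ∈ Ge FV n) : φ f ∈ Ge FV' n := by
  classical
  rw [← sum_cf f, map_sum]
  refine sum_mem fun a _ => ?_
  by_cases h0 : cf a f = 0
  · simp [h0]
  rw [map_smul, Algebra.smul_def]
  refine Ideal.mul_mem_left _ _ (Ge_anti (hf a h0) ?_)
  rw [map_zm]
  refine Finset.induction_on (motive := fun A => ∏ v ∈ A, φ (z v) ^ a v ∈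
    Ge FV' (∑ v ∈ A, a v * FV v)) univ (fun b _ => by simp) fun v A hv ih => ?_
  rw [prod_insert hv, sum_insert hv]
  exact Ge_mul (Ideal.mul_mem_mul (Ge_pow _ (Ideal.pow_mem_pow (h v) _)) ih)

end Hi

section Lower
variable {s : Type} [Fintype s] [DecidableEq s]

omit hp in
theorem wt_sub (wu : ℤ) (wz wd : s → ℤ) (x y : Ix s) : wt wu wz wd x - wt wu wz wd y =
    wu * (x.1 - y.1) + ∑ i, (((x.2.1 i : ℤ) - y.2.1 i) * wz i +
      ((if i ∈ x.2.2 then 1 else 0) - if i ∈ y.2.2 then 1 else 0) * wd i) := by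
  simp only [wt, sub_mul, sum_add_distrib, sum_sub_distrib, ite_mul, one_mul, zero_mul,
    sum_ite_mem, univ_inter]
  ring

omit hp in
theorem wt_diff_le {wu : ℤ} {wz wd wz' wd' : s → ℤ} {x y : Ix s} {A : Finset s}
    (h1 : ∀ i ∈ A, (x.2.1 i ≤ y.2.1 i ∧ wz' i ≤ wz i ∨ wz' i = wz i) ∧ i ∈ y.2.2 ∧ wd' i ≤ wd i)
    (h2 : ∀ i, i ∉ A → (y.2.1 i ≤ x.2.1 i ∧ wz i ≤ wz' i ∨ wz' i = wz i) ∧ i ∉ y.2.2 ∧
      wd i ≤ wd' i) :
    wt wu wz wd x - wt wu wz wd y ≤ wt wu wz' wd' x - wt wu wz' wd' y := by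
  rw [wt_sub, wt_sub]
  refine add_le_add le_rfl (sum_le_sum fun i _ => ?_)
  by_cases hi : i ∈ A
  · obtain ⟨a, b, c⟩ := h1 i hi
    refine add_le_add ?_ ?_
    · rcases a with ⟨a, a'⟩ | a
      · have : (x.2.1 i : ℤ) ≤ y.2.1 i := by exact_mod_cast a
        nlinarith
      · rw [a]
    · rw [if_pos b]
      split_ifs <;> linarith
  · obtain ⟨a, b, c⟩ := h2 i hi
    refine add_le_add ?_ ?_
    · rcases a with ⟨a, a'⟩ | a
      · have : (y.2.1 i : ℤ) ≤ x.2.1 i := by exact_mod_cast a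
        nlinarith
      · rw [a]
    · rw [if_neg b]
      split_ifs <;> linarith

/-- the same wall with other weights -/
def Wall.reF (w : Wall p Γ δ s) (F' : s → ℕ) : Wall p Γ δ s := { w with F := F' }

/-- tests survive when the near weights are lowered and the other weights are raised -/
theorem Wall.Test.reF {w : Wall p Γ δ s} {N La : ℕ} {b : Bool} {al : s} (hal : w.kd al = none)
    (h : w.Test N La b al) (N' : ℕ) (F' : s → ℕ)
    (h1 : ∀ i ∈ w.nr b, N' + F' i ≤ N + w.F i) (h2 : ∀ i, i ∉ w.nr b → N + w.F i ≤ N' + F' i) :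
    (w.reF F').Test N' La b al := by
  obtain ⟨ze, η, h0, hH, hL⟩ := h
  have box : ∀ {x : Ix s} {ω : Om p (Au p) s}, (Om.co x.2.1 x.2.2 ω).coeff x.1 ≠ 0 →
      ∀ i, x.2.1 i < p := fun {x ω} hx => by
    by_contra hc
    rw [Om.co_of_not hc] at hx
    exact hx rfl
  have h1' : ∀ i ∈ w.nr b, (N' : ℤ) + F' i ≤ N + w.F i := fun i hi => by exact_mod_cast h1 i hi
  have h2' : ∀ i, i ∉ w.nr b → (N : ℤ) + w.F i ≤ N' + F' i := fun i hi => by
    exact_mod_cast h2 i hi
  refine ⟨ze, η, h0, fun x hx => ?_, fun x hx => ?_⟩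
  · have hb := box hx
    have key : w.wF N x - w.wF N (w.h0 b 0) ≤
        (w.reF F').wF N' x - (w.reF F').wF N' ((w.reF F').h0 b 0) :=
      wt_diff_le (A := w.nr b) (y := w.h0 b 0)
        (fun i hi => ⟨Or.inl ⟨by have := hb i; simp only [Wall.h0, if_pos hi]; omega, h1' i hi⟩,
          hi, h1' i hi⟩)
        fun i hi => ⟨Or.inl ⟨by simp [Wall.h0, hi], h2' i hi⟩, hi, h2' i hi⟩
    rcases hH x hx with h | ⟨h, h'⟩
    · exact Or.inl h
    · refine Or.inr ⟨h, ?_⟩
      split_ifs at h' ⊢ <;> omega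
  · have hb := box hx
    have key : w.wW N La x - w.wW N La (w.ld b al) ≤
        (w.reF F').wW N' La x - (w.reF F').wW N' La ((w.reF F').ld b al) := by
      refine wt_diff_le (A := w.nr b) (y := w.ld b al) (fun i hi => ⟨?_, hi, h1' i hi⟩)
        fun i hi => ⟨?_, hi, h2' i hi⟩
      all_goals
        by_cases hk : w.kd i = none
        · exact Or.inr (by simp [Wall.reF, hk])
        have hne : i ≠ al := fun e => hk (e ▸ hal)
      · exact Or.inl ⟨by have := hb i; simp only [Wall.ld, if_neg hne, if_pos hi]; omega,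
          by simpa [Wall.reF, hk] using h1' i hi⟩
      · exact Or.inl ⟨by simp [Wall.ld, hne, hi], by simpa [Wall.reF, hk] using h2' i hi⟩
    have h := hL x hx
    unfold Wall.Lt at h ⊢
    split_ifs at h ⊢
    · exact ⟨by omega, h.2⟩
    · omega

end Lower

end N255.Core
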